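import Mathlib
import Vale.Agent.P047.Disproof.LocalBL

/-!
The geometric Brascamp-Lieb inequality in rank one, in functional and in entropy form.
The proof is by monotone transport onto the Gaussian and a change of variables.
-/

open MeasureTheory Set Filter Real
open scoped RealInnerProductSpace ENNReal

namespace Vale.Agent.P237.BL

open Vale.Agent.P047.Disproof.BL (g g_pos g_eq continuous_g cdfOf hasDerivAt_cdfOf cdfOf_mem Ψ
  hasDerivAt_Ψ)

variable {n : ℕ} {ι : Type*} [Fintype ι] {u : ι → EuclideanSpace ℝ (Fin n)} {c : ι → ℝ}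

/-- Monotone transport of a positive density onto the standard Gaussian. -/
theorem exists_gauss_transport {f : ℝ → ℝ} (hf : Continuous f) (hi : Integrable f)
    (hp : ∀ t, 0 < f t) (hone : ∫ t, f t = 1) :
    ∃ T T' : ℝ → ℝ, (∀ t, HasDerivAt T (T' t) t) ∧ (∀ t, 0 < T' t) ∧ StrictMono T ∧
      ∀ t, f t = g (T t) * T' t := by
  have hd : ∀ t, HasDerivAt (fun t => Ψ (cdfOf f t)) ((g (Ψ (cdfOf f t)))⁻¹ * f t) t := fun t =>
    (hasDerivAt_Ψ (cdfOf_mem hf hi hp hone t)).comp t (hasDerivAt_cdfOf hf hi t)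
  have hpos : ∀ t, 0 < (g (Ψ (cdfOf f t)))⁻¹ * f t := fun t =>
    mul_pos (inv_pos.mpr (g_pos _)) (hp t)
  refine ⟨_, _, hd, hpos, strictMono_of_hasDerivAt_pos hd hpos, fun t => ?_⟩
  rw [← mul_assoc, mul_inv_cancel₀ (g_pos _).ne', one_mul]

/-- Parseval for a decomposition of the identity. -/
theorem sum_mul_inner_sq (hI : ∀ x, ∑ i, (c i * ⟪u i, x⟫) • u i = x)
    (x : EuclideanSpace ℝ (Fin n)) : ∑ i, c i * ⟪u i, x⟫ ^ 2 = ‖x‖ ^ 2 := by
  have h := congrArg (fun y => ⟪y, x⟫) (hI x)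
  simp only [sum_inner, real_inner_smul_left] at h
  rw [real_inner_self_eq_norm_sq] at h
  rw [← h]
  exact Finset.sum_congr rfl fun i _ => by ring

/-- The weights of a decomposition of the identity add up to the dimension. -/
theorem sum_weights (hu : ∀ i, ‖u i‖ = 1) (hI : ∀ x, ∑ i, (c i * ⟪u i, x⟫) • u i = x) :
    ∑ i, c i = n := by
  set b := EuclideanSpace.basisFun (Fin n) ℝ
  calc ∑ i, c i = ∑ i, c i * ∑ k, ⟪u i, b k⟫ ^ 2 := by
        simp only [b.sum_sq_inner_left, hu, one_pow, mul_one]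
    _ = ∑ k, ∑ i, c i * ⟪u i, b k⟫ ^ 2 := by simp only [Finset.mul_sum]; exact Finset.sum_comm
    _ = n := by simp [sum_mul_inner_sq hI, b.orthonormal.1]

/-- A superposition of rank one projections of a decomposition of the identity. -/
noncomputable def mix (u : ι → EuclideanSpace ℝ (Fin n)) (c : ι → ℝ) (t : ι → ℝ) :
    EuclideanSpace ℝ (Fin n) →L[ℝ] EuclideanSpace ℝ (Fin n) :=
  ∑ i, (c i * t i) • (innerSL ℝ (u i)).smulRight (u i)

theorem mix_apply (t : ι → ℝ) (x : EuclideanSpace ℝ (Fin n)) :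
    mix u c t x = ∑ i, (c i * t i * ⟪u i, x⟫) • u i := by
  simp [mix, smul_smul]

/-- The determinant inequality. -/
theorem exp_le_det_mix (hc : ∀ i, 0 ≤ c i) (hu : ∀ i, ‖u i‖ = 1)
    (hI : ∀ x, ∑ i, (c i * ⟪u i, x⟫) • u i = x) {t : ι → ℝ} (ht : ∀ i, 0 < t i) :
    exp (∑ i, c i * Real.log (t i)) ≤ |(mix u c t).det| := by
  have hs : ((mix u c t) : EuclideanSpace ℝ (Fin n) →ₗ[ℝ] EuclideanSpace ℝ (Fin n)).IsSymmetric := by
    intro x y
    simp only [ContinuousLinearMap.coe_coe, mix_apply, sum_inner, inner_sum, real_inner_smul_left,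
      real_inner_smul_right]
    exact Finset.sum_congr rfl fun i _ => by rw [real_inner_comm x (u i)]; ring
  have hn : Module.finrank ℝ (EuclideanSpace ℝ (Fin n)) = n := finrank_euclideanSpace_fin
  set e := hs.eigenvectorBasis hn
  set l := hs.eigenvalues hn
  have hl : ∀ k, l k = ∑ i, c i * ⟪u i, e k⟫ ^ 2 * t i := fun k => by
    have h := hs.apply_eigenvectorBasis hn k
    have h2 := congrArg (fun y => ⟪y, e k⟫) h
    simp only [ContinuousLinearMap.coe_coe, mix_apply, sum_inner, real_inner_smul_left,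
      RCLike.ofReal_real_eq_id, id_eq] at h2
    rw [real_inner_self_eq_norm_sq, e.orthonormal.1 k, one_pow, mul_one] at h2
    rw [show l k = hs.eigenvalues hn k from rfl, ← h2]
    exact Finset.sum_congr rfl fun i _ => by ring
  have hw : ∀ k, ∑ i, c i * ⟪u i, e k⟫ ^ 2 = 1 := fun k => by
    rw [sum_mul_inner_sq hI, e.orthonormal.1 k, one_pow]
  have hpos : ∀ k, 0 < l k := fun k => by
    rw [hl]
    obtain ⟨i, -, hi⟩ : ∃ i ∈ (Finset.univ : Finset ι), c i * ⟪u i, e k⟫ ^ 2 ≠ 0 :=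
      Finset.exists_ne_zero_of_sum_ne_zero (by rw [hw k]; norm_num)
    exact Finset.sum_pos' (fun j _ => mul_nonneg (mul_nonneg (hc j) (sq_nonneg _)) (ht j).le)
      ⟨i, Finset.mem_univ _, mul_pos
        (lt_of_le_of_ne (mul_nonneg (hc i) (sq_nonneg _)) hi.symm) (ht i)⟩
  have hlog : ∀ k, ∑ i, c i * ⟪u i, e k⟫ ^ 2 * Real.log (t i) ≤ Real.log (l k) := fun k => by
    have h : ∀ i, c i * ⟪u i, e k⟫ ^ 2 * Real.log (t i) ≤
        c i * ⟪u i, e k⟫ ^ 2 * (Real.log (l k) - 1) + c i * ⟪u i, e k⟫ ^ 2 * t i / l k := fun i => by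
      have := Real.log_le_sub_one_of_pos (div_pos (ht i) (hpos k))
      rw [Real.log_div (ht i).ne' (hpos k).ne'] at this
      have hm := mul_le_mul_of_nonneg_left this (mul_nonneg (hc i) (sq_nonneg ⟪u i, e k⟫))
      calc _ ≤ _ := by linarith
        _ = c i * ⟪u i, e k⟫ ^ 2 * (Real.log (l k) - 1) +
            c i * ⟪u i, e k⟫ ^ 2 * (t i / l k) := rfl
        _ = _ := by rw [mul_div_assoc]
    refine (Finset.sum_le_sum fun i _ => h i).trans (le_of_eq ?_)
    rw [Finset.sum_add_distrib, ← Finset.sum_mul, ← Finset.sum_div, hw, ← hl,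
      div_self (hpos k).ne']
    ring
  have hdet : (mix u c t).det = ∏ k, l k := by
    rw [ContinuousLinearMap.det]; simpa using hs.det_eq_prod_eigenvalues hn
  rw [hdet, abs_of_pos (Finset.prod_pos fun k _ => hpos k)]
  calc exp (∑ i, c i * Real.log (t i)) ≤ exp (∑ k, Real.log (l k)) := by
        refine exp_le_exp.2 (le_trans (le_of_eq ?_) (Finset.sum_le_sum fun k _ => hlog k))
        rw [Finset.sum_comm]
        refine Finset.sum_congr rfl fun i _ => ?_
        rw [← Finset.sum_mul, ← Finset.mul_sum, e.sum_sq_inner_left, hu, one_pow, mul_one]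
    _ = ∏ k, l k := by
        rw [Real.exp_sum]; exact Finset.prod_congr rfl fun k _ => exp_log (hpos k)

theorem continuous_prod_rpow (hc : ∀ i, 0 ≤ c i) {f : ι → ℝ → ℝ} (hf : ∀ i, Continuous (f i)) :
    Continuous fun x : EuclideanSpace ℝ (Fin n) => ∏ i, f i ⟪u i, x⟫ ^ c i :=
  continuous_finsetProd _ fun i _ =>
    ((hf i).comp (continuous_const.inner continuous_id)).rpow_const fun _ => .inr (hc i)

/-- The inequality for probability densities. -/
theorem lintegral_prod_rpow_le_one (hc : ∀ i, 0 ≤ c i) (hu : ∀ i, ‖u i‖ = 1)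
    (hI : ∀ x, ∑ i, (c i * ⟪u i, x⟫) • u i = x) {f : ι → ℝ → ℝ} (hf : ∀ i, Continuous (f i))
    (hp : ∀ i t, 0 < f i t) (hi : ∀ i, Integrable (f i)) (hone : ∀ i, ∫ t, f i t = 1) :
    ∫⁻ x : EuclideanSpace ℝ (Fin n), ENNReal.ofReal (∏ i, f i ⟪u i, x⟫ ^ c i) ≤ 1 := by
  choose T T' hT hT0 hTm hfT using fun i => exists_gauss_transport (hf i) (hi i) (hp i) (hone i)
  set Φ : EuclideanSpace ℝ (Fin n) → EuclideanSpace ℝ (Fin n) :=
    fun x => ∑ i, (c i * T i ⟪u i, x⟫) • u i with hΦ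
  have hD : ∀ x, HasFDerivAt Φ (mix u c fun i => T' i ⟪u i, x⟫) x := fun x => by
    have h : ∀ i, HasFDerivAt (fun y => (c i * T i ⟪u i, y⟫) • u i)
        ((c i * T' i ⟪u i, x⟫) • (innerSL ℝ (u i)).smulRight (u i)) x := fun i => by
      have h1 : HasFDerivAt (fun y => T i ⟪u i, y⟫) (T' i ⟪u i, x⟫ • innerSL ℝ (u i)) x :=
        (hT i _).comp_hasFDerivAt x (innerSL ℝ (u i)).hasFDerivAt
      refine ((h1.const_mul (c i)).smul_const (u i)).congr_fderiv ?_
      ext y
      simp [smul_smul, mul_assoc]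
    exact HasFDerivAt.fun_sum fun i _ => h i
  have hinj : InjOn Φ univ := by
    intro x _ y _ hxy
    have h0 : ⟪Φ x - Φ y, x - y⟫ = 0 := by rw [hxy, sub_self, inner_zero_left]
    simp only [hΦ, ← Finset.sum_sub_distrib, ← sub_smul, sum_inner, real_inner_smul_left] at h0
    have hnn : ∀ i, 0 ≤ (c i * T i ⟪u i, x⟫ - c i * T i ⟪u i, y⟫) * ⟪u i, x - y⟫ := by
      intro i
      rw [inner_sub_right, ← mul_sub, mul_assoc]
      refine mul_nonneg (hc i) ?_
      rcases le_total ⟪u i, x⟫ ⟪u i, y⟫ with h | h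
      · exact mul_nonneg_of_nonpos_of_nonpos (sub_nonpos.2 ((hTm i).monotone h)) (sub_nonpos.2 h)
      · exact mul_nonneg (sub_nonneg.2 ((hTm i).monotone h)) (sub_nonneg.2 h)
    have hz := (Finset.sum_eq_zero_iff_of_nonneg fun i _ => hnn i).1 h0
    refine sub_eq_zero.1 ?_
    rw [← hI (x - y)]
    refine Finset.sum_eq_zero fun i hi => ?_
    rw [inner_sub_right]
    rcases mul_eq_zero.1 (hz i hi) with h | h
    · rw [← mul_sub, mul_eq_zero, sub_eq_zero] at h
      rcases h with h | h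
      · simp [h]
      · simp [(hTm i).injective h]
    · rw [inner_sub_right] at h; simp [h]
  set Z : ℝ := (√(2 * π))⁻¹ with hZ
  have hZ0 : 0 < Z := by positivity
  have hpt : ∀ x, ∏ i, f i ⟪u i, x⟫ ^ c i ≤
      |(mix u c fun i => T' i ⟪u i, x⟫).det| * (Z ^ n * exp (-‖Φ x‖ ^ 2 / 2)) := by
    intro x
    set a : ι → ℝ := fun i => T i ⟪u i, x⟫ with ha
    have hsq : ‖Φ x‖ ^ 2 ≤ ∑ i, c i * a i ^ 2 := by
      have h1 : ‖Φ x‖ ^ 2 = ∑ i, c i * a i * ⟪u i, Φ x⟫ := by
        rw [← real_inner_self_eq_norm_sq]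
        calc ⟪Φ x, Φ x⟫ = ∑ i, ⟪(c i * a i) • u i, Φ x⟫ :=
              sum_inner Finset.univ (fun i => (c i * a i) • u i) (Φ x)
          _ = _ := by simp only [real_inner_smul_left]
      have h2 : ∀ i, c i * a i * ⟪u i, Φ x⟫ ≤ (c i * a i ^ 2 + c i * ⟪u i, Φ x⟫ ^ 2) / 2 :=
        fun i => by nlinarith [mul_nonneg (hc i) (sq_nonneg (a i - ⟪u i, Φ x⟫))]
      have h3 := Finset.sum_le_sum (s := Finset.univ) fun i _ => h2 i
      rw [← Finset.sum_div, Finset.sum_add_distrib, sum_mul_inner_sq hI, ← h1] at h3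
      linarith
    have hlg : ∀ i, Real.log (f i ⟪u i, x⟫) =
        Real.log Z - a i ^ 2 / 2 + Real.log (T' i ⟪u i, x⟫) := fun i => by
      rw [hfT i, Real.log_mul (g_pos _).ne' (hT0 i _).ne', g, Real.log_mul hZ0.ne' (exp_pos _).ne',
        Real.log_exp]
      simp only [ha]; ring
    have hsum : ∑ i, c i * Real.log (f i ⟪u i, x⟫) = n * Real.log Z -
        (∑ i, c i * a i ^ 2) / 2 + ∑ i, c i * Real.log (T' i ⟪u i, x⟫) := by
      rw [← sum_weights hu hI, Finset.sum_mul, Finset.sum_div, ← Finset.sum_sub_distrib,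
        ← Finset.sum_add_distrib]
      exact Finset.sum_congr rfl fun i _ => by rw [hlg]; ring
    have hprod : ∏ i, f i ⟪u i, x⟫ ^ c i = exp (∑ i, c i * Real.log (f i ⟪u i, x⟫)) := by
      rw [Real.exp_sum]
      exact Finset.prod_congr rfl fun i _ => by rw [Real.rpow_def_of_pos (hp i _), mul_comm]
    rw [hprod, hsum, exp_add, mul_comm]
    refine mul_le_mul (exp_le_det_mix hc hu hI fun i => hT0 i _) ?_ (exp_pos _).le (abs_nonneg _)
    rw [show Z ^ n = exp (n * Real.log Z) by rw [Real.exp_nat_mul, exp_log hZ0], ← exp_add]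
    exact exp_le_exp.2 (by linarith)
  have hgauss : ∫ y : EuclideanSpace ℝ (Fin n), Z ^ n * exp (-‖y‖ ^ 2 / 2) = 1 := by
    rw [integral_const_mul]
    have := GaussianFourier.integral_rexp_neg_mul_sq_norm (V := EuclideanSpace ℝ (Fin n))
      (show (0 : ℝ) < 1 / 2 by norm_num)
    rw [finrank_euclideanSpace_fin] at this
    simp only [show ∀ y : EuclideanSpace ℝ (Fin n), -(1 / 2 : ℝ) * ‖y‖ ^ 2 = -‖y‖ ^ 2 / 2 from
      fun y => by ring] at this
    rw [this, show π / (1 / 2) = 2 * π by ring, hZ, inv_pow,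
      show (n : ℝ) / 2 = 2⁻¹ * n by ring, Real.rpow_mul (by positivity), Real.rpow_natCast,
      ← one_div 2, ← Real.sqrt_eq_rpow, inv_mul_cancel₀ (by positivity)]
  calc ∫⁻ x : EuclideanSpace ℝ (Fin n), ENNReal.ofReal (∏ i, f i ⟪u i, x⟫ ^ c i)
      ≤ ∫⁻ x in univ, ENNReal.ofReal |(mix u c fun i => T' i ⟪u i, x⟫).det| *
          ENNReal.ofReal (Z ^ n * exp (-‖Φ x‖ ^ 2 / 2)) := by
        rw [setLIntegral_univ]
        refine lintegral_mono fun x => ?_
        rw [← ENNReal.ofReal_mul (abs_nonneg _)]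
        exact ENNReal.ofReal_le_ofReal (hpt x)
    _ = ∫⁻ y in Φ '' univ, ENNReal.ofReal (Z ^ n * exp (-‖y‖ ^ 2 / 2)) :=
        (lintegral_image_eq_lintegral_abs_det_fderiv_mul volume MeasurableSet.univ
          (fun x _ => (hD x).hasFDerivWithinAt) hinj
          fun y => ENNReal.ofReal (Z ^ n * exp (-‖y‖ ^ 2 / 2))).symm
    _ ≤ ∫⁻ y, ENNReal.ofReal (Z ^ n * exp (-‖y‖ ^ 2 / 2)) := setLIntegral_le_lintegral _ _
    _ = 1 := by
        rw [← ofReal_integral_eq_lintegral_ofReal ?_ (Eventually.of_forall fun y => by positivity),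
          hgauss, ENNReal.ofReal_one]
        exact Integrable.of_integral_ne_zero (by rw [hgauss]; norm_num)

/-- The geometric Brascamp-Lieb inequality in rank one. -/
theorem integral_prod_rpow_le (hc : ∀ i, 0 ≤ c i) (hu : ∀ i, ‖u i‖ = 1)
    (hI : ∀ x, ∑ i, (c i * ⟪u i, x⟫) • u i = x) {f : ι → ℝ → ℝ} (hf : ∀ i, Continuous (f i))
    (hp : ∀ i t, 0 < f i t) (hi : ∀ i, Integrable (f i)) :
    Integrable (fun x : EuclideanSpace ℝ (Fin n) => ∏ i, f i ⟪u i, x⟫ ^ c i) ∧
      ∫ x : EuclideanSpace ℝ (Fin n), ∏ i, f i ⟪u i, x⟫ ^ c i ≤ ∏ i, (∫ t, f i t) ^ c i := by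
  set m : ι → ℝ := fun i => ∫ t, f i t with hm
  have hm0 : ∀ i, 0 < m i := fun i =>
    (integral_pos_iff_support_of_nonneg (fun t => (hp i t).le) (hi i)).2 (by
      rw [show Function.support (f i) = univ from eq_univ_of_forall fun t => (hp i t).ne']
      simp)
  set F : EuclideanSpace ℝ (Fin n) → ℝ := fun x => ∏ i, (f i ⟪u i, x⟫ / m i) ^ c i with hF
  have hFe : (fun x => ∏ i, f i ⟪u i, x⟫ ^ c i) = fun x => (∏ i, m i ^ c i) * F x := by
    funext x
    rw [hF, ← Finset.prod_mul_distrib]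
    refine Finset.prod_congr rfl fun i _ => ?_
    rw [Real.div_rpow (hp i _).le (hm0 i).le,
      mul_div_cancel₀ _ (Real.rpow_pos_of_pos (hm0 i) _).ne']
  have hL := lintegral_prod_rpow_le_one (f := fun i t => f i t / m i) hc hu hI
    (fun i => (hf i).div_const _) (fun i t => div_pos (hp i t) (hm0 i))
    (fun i => (hi i).div_const _) (fun i => by
      rw [integral_div]; exact div_self (hm0 i).ne')
  have hF0 : ∀ x, 0 ≤ F x := fun x =>
    Finset.prod_nonneg fun i _ => Real.rpow_nonneg (div_pos (hp i _) (hm0 i)).le _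
  have hFi : Integrable F := by
    refine ⟨(continuous_prod_rpow (f := fun i t => f i t / m i) hc
      fun i => (hf i).div_const _).aestronglyMeasurable, ?_⟩
    rw [hasFiniteIntegral_iff_ofReal (Eventually.of_forall hF0)]
    exact hL.trans_lt ENNReal.one_lt_top
  refine ⟨hFe ▸ hFi.const_mul _, ?_⟩
  rw [hFe, integral_const_mul]
  refine mul_le_of_le_one_right (Finset.prod_nonneg fun i _ => Real.rpow_nonneg (hm0 i).le _) ?_
  rw [← ENNReal.ofReal_le_one, ofReal_integral_eq_lintegral_ofReal hFi (Eventually.of_forall hF0)]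
  exact hL

/-- Entropy form: relative to the product of one dimensional densities. -/
theorem sum_integral_mul_log_le (hc : ∀ i, 0 ≤ c i) (hu : ∀ i, ‖u i‖ = 1)
    (hI : ∀ x, ∑ i, (c i * ⟪u i, x⟫) • u i = x) {f : ι → ℝ → ℝ} (hf : ∀ i, Continuous (f i))
    (hp : ∀ i t, 0 < f i t) (hi : ∀ i, Integrable (f i)) (hone : ∀ i, ∫ t, f i t ≤ 1)
    {ρ : EuclideanSpace ℝ (Fin n) → ℝ} (hρ0 : ∀ x, 0 ≤ ρ x) (hρ : Integrable ρ)
    (hρ1 : ∫ x, ρ x = 1) (hρl : Integrable fun x => ρ x * Real.log (ρ x))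
    (hρf : ∀ i, Integrable fun x => ρ x * Real.log (f i ⟪u i, x⟫)) :
    ∑ i, c i * ∫ x, ρ x * Real.log (f i ⟪u i, x⟫) ≤ ∫ x, ρ x * Real.log (ρ x) := by
  obtain ⟨hq, hqle⟩ := integral_prod_rpow_le hc hu hI hf hp hi
  have hq1 := hqle.trans (Finset.prod_le_one (fun i _ => Real.rpow_nonneg
    (integral_nonneg fun t => (hp i t).le) _) fun i _ => Real.rpow_le_one
    (integral_nonneg fun t => (hp i t).le) (hone i) (hc i))
  set L : EuclideanSpace ℝ (Fin n) → ℝ := fun x => ∑ i, c i * Real.log (f i ⟪u i, x⟫) with hL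
  have hqe : ∀ x, ∏ i, f i ⟪u i, x⟫ ^ c i = exp (L x) := fun x => by
    rw [hL, Real.exp_sum]
    exact Finset.prod_congr rfl fun i _ => by rw [Real.rpow_def_of_pos (hp i _), mul_comm]
  simp only [hqe] at hq hq1
  have hsum : (fun x => ρ x * L x) = fun x => ∑ i, c i * (ρ x * Real.log (f i ⟪u i, x⟫)) :=
    funext fun x => by rw [hL, Finset.mul_sum]; exact Finset.sum_congr rfl fun i _ => by ring
  have hρL : Integrable fun x => ρ x * L x := by
    rw [hsum]; exact integrable_finsetSum _ fun i _ => (hρf i).const_mul _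
  have hd : Integrable fun x => exp (L x) - ρ x := hq.sub hρ
  have key : ∀ x, ρ x * L x ≤ ρ x * Real.log (ρ x) + (exp (L x) - ρ x) := fun x => by
    rcases (hρ0 x).lt_or_eq with h | h
    · have h2 := Real.add_one_le_exp (L x - Real.log (ρ x))
      rw [exp_sub, exp_log h, le_div_iff₀ h] at h2
      linarith
    · rw [← h]; simp [(exp_pos (L x)).le]
  calc ∑ i, c i * ∫ x, ρ x * Real.log (f i ⟪u i, x⟫) = ∫ x, ρ x * L x := by
        rw [hsum, integral_finsetSum _ fun i _ => (hρf i).const_mul _]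
        simp only [integral_const_mul]
    _ ≤ ∫ x, (ρ x * Real.log (ρ x) + (exp (L x) - ρ x)) :=
        integral_mono hρL (hρl.add hd) key
    _ ≤ _ := by rw [integral_add hρl hd, integral_sub hq hρ, hρ1]; linarith

/-- A function of one coordinate integrates as against the marginal density. -/
theorem integral_comp_inner_mul {e : EuclideanSpace ℝ (Fin n)} {ρ : EuclideanSpace ℝ (Fin n) → ℝ}
    (hρ0 : ∀ x, 0 ≤ ρ x) (hρ : Integrable ρ) {f φ : ℝ → ℝ} (hf : Measurable f)
    (hf0 : ∀ t, 0 ≤ f t) (hφ : Measurable φ)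
    (hm : (volume.withDensity fun x => ENNReal.ofReal (ρ x)).map (fun x => ⟪e, x⟫) =
      volume.withDensity fun t => ENNReal.ofReal (f t))
    (hφi : Integrable fun t => f t * φ t) :
    Integrable (fun x => ρ x * φ ⟪e, x⟫) ∧ ∫ x, ρ x * φ ⟪e, x⟫ = ∫ t, f t * φ t := by
  have he : Measurable fun x : EuclideanSpace ℝ (Fin n) => ⟪e, x⟫ :=
    (continuous_const.inner continuous_id).measurable
  have hρm : AEMeasurable (fun x => ENNReal.ofReal (ρ x)) volume := hρ.aemeasurable.ennreal_ofReal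
  have hfm : AEMeasurable (fun t => ENNReal.ofReal (f t)) volume :=
    hf.ennreal_ofReal.aemeasurable
  have h1 : ∀ t, (ENNReal.ofReal (f t)).toReal • φ t = f t * φ t := fun t => by
    rw [ENNReal.toReal_ofReal (hf0 t), smul_eq_mul]
  have h2 : ∀ x, (ENNReal.ofReal (ρ x)).toReal • φ ⟪e, x⟫ = ρ x * φ ⟪e, x⟫ := fun x => by
    rw [ENNReal.toReal_ofReal (hρ0 x), smul_eq_mul]
  have hI1 : Integrable φ (volume.withDensity fun t => ENNReal.ofReal (f t)) := by
    rw [integrable_withDensity_iff_integrable_smul₀' hfm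
      (Eventually.of_forall fun t => ENNReal.ofReal_lt_top)]
    simpa only [h1] using hφi
  rw [← hm, integrable_map_measure hφ.aestronglyMeasurable he.aemeasurable,
    integrable_withDensity_iff_integrable_smul₀' hρm
      (Eventually.of_forall fun x => ENNReal.ofReal_lt_top)] at hI1
  simp only [Function.comp_apply, h2] at hI1
  refine ⟨hI1, ?_⟩
  have h3 : ∫ t, φ t ∂(volume.withDensity fun t => ENNReal.ofReal (f t)) = ∫ t, f t * φ t := by
    rw [integral_withDensity_eq_integral_toReal_smul₀ hfm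
      (Eventually.of_forall fun t => ENNReal.ofReal_lt_top)]
    simp only [h1]
  rw [← hm, integral_map he.aemeasurable hφ.aestronglyMeasurable,
    integral_withDensity_eq_integral_toReal_smul₀ hρm
      (Eventually.of_forall fun x => ENNReal.ofReal_lt_top)] at h3
  simpa only [h2] using h3

/-- Entropy subadditivity along a decomposition of the identity: the joint differential entropy is
at most the weighted sum of the marginal ones. -/
theorem sum_entropy_marginal_le (hc : ∀ i, 0 ≤ c i) (hu : ∀ i, ‖u i‖ = 1)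
    (hI : ∀ x, ∑ i, (c i * ⟪u i, x⟫) • u i = x) {f : ι → ℝ → ℝ} (hf : ∀ i, Continuous (f i))
    (hp : ∀ i t, 0 < f i t) (hfl : ∀ i, Integrable fun t => f i t * Real.log (f i t))
    {ρ : EuclideanSpace ℝ (Fin n) → ℝ} (hρ0 : ∀ x, 0 ≤ ρ x) (hρ : Integrable ρ)
    (hρ1 : ∫ x, ρ x = 1) (hρl : Integrable fun x => ρ x * Real.log (ρ x))
    (hm : ∀ i, (volume.withDensity fun x => ENNReal.ofReal (ρ x)).map (fun x => ⟪u i, x⟫) =
      volume.withDensity fun t => ENNReal.ofReal (f i t)) :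
    ∑ i, c i * ∫ t, f i t * Real.log (f i t) ≤ ∫ x, ρ x * Real.log (ρ x) := by
  have hmass : ∀ i, ∫⁻ t, ENNReal.ofReal (f i t) = 1 := fun i => by
    have h := congrArg (fun μ : Measure ℝ => μ univ) (hm i)
    have he : Measurable fun x : EuclideanSpace ℝ (Fin n) => ⟪u i, x⟫ :=
      (continuous_const.inner continuous_id).measurable
    rw [Measure.map_apply he MeasurableSet.univ,
      preimage_univ, withDensity_apply _ MeasurableSet.univ, withDensity_apply _ MeasurableSet.univ,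
      setLIntegral_univ, setLIntegral_univ,
      ← ofReal_integral_eq_lintegral_ofReal hρ (Eventually.of_forall hρ0), hρ1,
      ENNReal.ofReal_one] at h
    exact h.symm
  have hi : ∀ i, Integrable (f i) := fun i =>
    ⟨(hf i).aestronglyMeasurable, by
      rw [hasFiniteIntegral_iff_ofReal (Eventually.of_forall fun t => (hp i t).le), hmass i]
      exact ENNReal.one_lt_top⟩
  have hone : ∀ i, ∫ t, f i t ≤ 1 := fun i => by
    rw [← ENNReal.ofReal_le_one,
      ofReal_integral_eq_lintegral_ofReal (hi i) (Eventually.of_forall fun t => (hp i t).le),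
      hmass i]
  have hk := fun i => integral_comp_inner_mul hρ0 hρ (hf i).measurable (fun t => (hp i t).le)
    ((hf i).log fun t => (hp i t).ne').measurable (hm i) (hfl i)
  calc ∑ i, c i * ∫ t, f i t * Real.log (f i t)
      = ∑ i, c i * ∫ x, ρ x * Real.log (f i ⟪u i, x⟫) :=
        Finset.sum_congr rfl fun i _ => by rw [(hk i).2]
    _ ≤ _ := sum_integral_mul_log_le hc hu hI hf hp hi hone hρ0 hρ hρ1 hρl fun i => (hk i).1

end Vale.Agent.P237.BL
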