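import Mathlib

/-!
The projection body in Euclidean three-space, from the areas of orthogonal projections.
-/

open MeasureTheory
open scoped RealInnerProductSpace

namespace Vale.Agent.P237

noncomputable section

/-- Euclidean three-space. -/
abbrev E3 : Type := EuclideanSpace ℝ (Fin 3)

/-- The plane through the origin orthogonal to `u`. -/
abbrev perpPlane (u : E3) : Submodule ℝ E3 := (ℝ ∙ u)ᗮ

/-- The orthogonal projection onto the plane orthogonal to `u`. -/
def projAlong (u : E3) : E3 → perpPlane u :=
  fun x => Submodule.orthogonalProjectionOnto (perpPlane u) x

/-- Area in the plane orthogonal to `u`. -/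
def planeArea (u : E3) (A : Set (perpPlane u)) : ℝ := volume.real A

/-- The projection body: `h(u)` is the area of the orthogonal projection of `K` along `u`. -/
def projBody (K : Set E3) : Set E3 :=
  {y | ∀ u : E3, ‖u‖ = 1 → ⟪u, y⟫ ≤ planeArea u (projAlong u '' K)}

end

end Vale.Agent.P237
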