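import Mathlib

/-!
Shared definitions for the Petty inequality in dimension three.  Everything internal lives on
`Fin 3 → ℝ` with its product Lebesgue measure; `pA K u` is `‖u‖` times the area of the projection
of `K` along `u`, written through `vol (K + [-u, u]) = vol K + 2 * pA K u`.
-/

open MeasureTheory Set Pointwise

namespace Vale.Agent.P237

noncomputable section

/-- Space. -/
abbrev V3 : Type := Fin 3 → ℝ

/-- The segment `[-u, u]`. -/
def seg (u : V3) : Set V3 := (fun t : ℝ => t • u) '' Icc (-1) 1

/-- The zonotope `Σ_i [-s_i, s_i]`. -/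
def zon {ι : Type} [Fintype ι] (s : ι → V3) : Set V3 :=
  (fun c : ι → ℝ => ∑ i, c i • s i) '' univ.pi fun _ => Icc (-1) 1

/-- Support function of the zonotope. -/
def supp {ι : Type} [Fintype ι] (s : ι → V3) (u : V3) : ℝ := ∑ i, |u ⬝ᵥ s i|

/-- Generators of the projection body of a zonotope. -/
def piGen {ι : Type} (s : ι → V3) : ι × ι → V3 :=
  fun p => (2 : ℝ) • crossProduct (s p.1) (s p.2)

/-- Length of `u` times the area of the projection along `u`. -/
def pA (K : Set V3) (u : V3) : ℝ := (volume.real (K + seg u) - volume.real K) / 2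

/-- `V₁(K, zon s)`. -/
def mixed {ι : Type} [Fintype ι] (K : Set V3) (s : ι → V3) : ℝ := 2 / 3 * ∑ i, pA K (s i)

/-- A convex body with the origin in its interior. -/
def Body (K : Set V3) : Prop := Convex ℝ K ∧ IsCompact K ∧ (0 : V3) ∈ interior K

/-- The first coordinate vector. -/
def e0 : V3 := Pi.single 0 1

/-- Area of the slice at first coordinate `t`. -/
def slArea (K : Set V3) (t : ℝ) : ℝ :=
  volume.real {y : Fin 2 → ℝ | (Fin.cons t y : V3) ∈ K}

/-- `∫ √(area of slice)`. -/
def sliceG (K : Set V3) : ℝ := ∫ t, Real.sqrt (slArea K t)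

end

end Vale.Agent.P237
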