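import Vale.Agent.P237.Profile.Main

/-!
# The one-variable profile inequality behind Petty's conjecture in dimension three
-/

namespace Vale.Agent.P237

open Set MeasureTheory

/-- A concave decreasing profile above the semicircle, with second moment at least that of the ball
of the same volume, has at least the flatness of the semicircle. -/
theorem profile_lemma (g : ℝ → ℝ) (hconc : ConcaveOn ℝ (Icc (0 : ℝ) 1) g)
    (hanti : AntitoneOn g (Icc (0 : ℝ) 1))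
    (hge : ∀ t ∈ Icc (0 : ℝ) 1, Real.sqrt (1 - t ^ 2) ≤ g t)
    (hmom : (1 / 5 : ℝ) * (3 / 2 * ∫ t in (0:ℝ)..1, g t ^ 2) ^ (2 / 3 : ℝ)
        * (∫ t in (0:ℝ)..1, g t ^ 2) ≤ ∫ t in (0:ℝ)..1, t ^ 2 * g t ^ 2) :
    3 * Real.pi ^ 2 / 32 * (∫ t in (0:ℝ)..1, g t ^ 2) ≤ (∫ t in (0:ℝ)..1, g t) ^ 2 :=
  Profile.profile_core ⟨hconc, hanti, hge⟩ hmom

/-- Equality in `profile_lemma` forces the second integral of the semicircle. -/
theorem profile_lemma_eq (g : ℝ → ℝ) (hconc : ConcaveOn ℝ (Icc (0 : ℝ) 1) g)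
    (hanti : AntitoneOn g (Icc (0 : ℝ) 1))
    (hge : ∀ t ∈ Icc (0 : ℝ) 1, Real.sqrt (1 - t ^ 2) ≤ g t)
    (hmom : (1 / 5 : ℝ) * (3 / 2 * ∫ t in (0:ℝ)..1, g t ^ 2) ^ (2 / 3 : ℝ)
        * (∫ t in (0:ℝ)..1, g t ^ 2) ≤ ∫ t in (0:ℝ)..1, t ^ 2 * g t ^ 2)
    (heq : (∫ t in (0:ℝ)..1, g t) ^ 2 ≤ 3 * Real.pi ^ 2 / 32 * (∫ t in (0:ℝ)..1, g t ^ 2)) :
    (∫ t in (0:ℝ)..1, g t ^ 2) = 2 / 3 :=
  Profile.profile_core_eq ⟨hconc, hanti, hge⟩ hmom heq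

end Vale.Agent.P237
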