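import Vale.Agent.P237.Defs
import Vale.Agent.P237.Contact.John
import Vale.Agent.P237.Profile

open MeasureTheory Set Pointwise

namespace Vale.Agent.P237

noncomputable section

/-- John position, a contact direction with a flat enough profile. -/
theorem exists_contact {X : Set V3} (hX : Body X) (hs : ∀ x ∈ X, -x ∈ X) :
    ∃ T : V3 ≃ₗ[ℝ] V3,
      (∀ x : V3, ∑ i, x i ^ 2 ≤ 1 → x ∈ T '' X) ∧
      (∀ x ∈ T '' X, ∀ i, |x i| ≤ Real.sqrt 3) ∧
      ∃ h : ℝ, 0 < h ∧ (∀ x ∈ T '' X, x 0 ≤ h) ∧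
        3 * Real.pi ^ 2 / 16 * volume.real (T '' X) * h ≤ sliceG (T '' X) ^ 2 :=
  exists_contact_of_scalar profile_lemma hX hs

end

end Vale.Agent.P237
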