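import Vale.Agent.P237.Euclid
import Vale.Agent.P237.Equality.Ellipsoid

/-!
Equality in Petty's inequality in Euclidean three-space: exactly the ellipsoids.
-/

open MeasureTheory Set Pointwise
open scoped RealInnerProductSpace

namespace Vale.Agent.P237

noncomputable section

/-- Coordinates of Euclidean space. -/
def cw : E3 ≃ₗ[ℝ] V3 := WithLp.linearEquiv 2 ℝ V3

lemma cw_apply (x : E3) : cw x = WithLp.ofLp x := rfl

lemma vol_cw {K : Set E3} (hk : IsCompact K) :
    volume.real (cw '' K) = volume.real K := by
  have e : K = WithLp.ofLp ⁻¹' (cw '' K) := (preimage_image_eq K (WithLp.ofLp_injective 2)).symm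
  have hm : MeasurableSet (cw '' K) := (hk.image (PiLp.continuous_ofLp 2 _)).measurableSet
  conv_rhs => rw [e]
  rw [measureReal_def, measureReal_def,
    (PiLp.volume_preserving_ofLp (Fin 3)).measure_preimage hm.nullMeasurableSet]

lemma body_cw {K : Set E3} (hc : Convex ℝ K) (hk : IsCompact K) (h0 : (0 : E3) ∈ interior K) :
    Body (cw '' K) := by
  refine ⟨hc.linear_image cw.toLinearMap, hk.image (PiLp.continuous_ofLp 2 _), ?_⟩
  have := (PiLp.homeomorph 2 fun _ : Fin 3 => ℝ).image_interior K
  rw [show (PiLp.homeomorph 2 fun _ : Fin 3 => ℝ) '' K = cw '' K from rfl] at this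
  rw [← this]
  exact ⟨0, h0, rfl⟩

lemma projBody_coord {K : Set E3} (hc : Convex ℝ K) (hk : IsCompact K) (h0 : (0 : E3) ∈ interior K) :
    projBody K = WithLp.ofLp ⁻¹' projSet (cw '' K) := by
  have hb := body_cw hc hk h0
  have hcw : cw '' K = WithLp.ofLp '' K := rfl
  ext y
  refine ⟨fun hy u => ?_, fun hy u hu => ?_⟩
  · rcases eq_or_ne u 0 with rfl | hu
    · simpa using pA_nonneg hb 0
    · set v : E3 := WithLp.toLp 2 u with hv
      have hv0 : v ≠ 0 := fun h => hu (congrArg WithLp.ofLp h)
      have hn : 0 < ‖v‖ := norm_pos_iff.2 hv0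
      have h1 : ‖(‖v‖⁻¹ • v)‖ = 1 := by simp [norm_smul, hn.ne']
      have h2 := hy _ h1
      unfold planeArea projAlong perpPlane at h2
      rw [← pA_eq_proj hc hk h1, inner_eq_dot, WithLp.ofLp_smul,
        ← hcw, pA_smul hb (inv_nonneg.2 hn.le), smul_dotProduct, smul_eq_mul] at h2
      exact le_of_mul_le_mul_left h2 (inv_pos.2 hn)
  · unfold planeArea projAlong perpPlane
    rw [inner_eq_dot, ← pA_eq_proj hc hk hu]
    exact hy (WithLp.ofLp u)

lemma vol_projBody {K : Set E3} (hc : Convex ℝ K) (hk : IsCompact K) (h0 : (0 : E3) ∈ interior K) :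
    volume.real (projBody K) = volume.real (projSet (cw '' K)) := by
  rw [projBody_coord hc hk h0, measureReal_def,
    (PiLp.volume_preserving_ofLp (Fin 3)).measure_preimage
      ((projSet_body (body_cw hc hk h0)).2.1.measurableSet.nullMeasurableSet), ← measureReal_def]

lemma cw_ball : cw '' Metric.closedBall (0 : E3) 1 = ball3 := by
  rw [ball3_eq]
  ext y
  exact ⟨fun ⟨z, hz, e⟩ => by rw [← e]; simpa [cw] using hz, fun h => ⟨_, h, rfl⟩⟩

/-- A translate with the origin inside has the same volume and projection body. -/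
lemma petty_translate {K : Set E3} (x : E3) :
    volume.real ((fun z => z + -x) '' K) = volume.real K ∧
      projBody ((fun z => z + -x) '' K) = projBody K :=
  ⟨by rw [image_add_right, measureReal_def, measure_preimage_add_right, ← measureReal_def],
    projBody_translate K _⟩

theorem petty_eq_iff {K : Set E3} (hc : Convex ℝ K) (hk : IsCompact K) (hi : (interior K).Nonempty) :
    volume.real (projBody K) = pc * volume.real K ^ 2 ↔
      ∃ (a : E3) (T : E3 ≃ₗ[ℝ] E3), K = (fun x => a + T x) '' Metric.closedBall 0 1 := by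
  constructor
  · intro h
    obtain ⟨x, hx⟩ := hi
    set K0 := (fun z => z + -x) '' K with hK0
    have he : K0 = Homeomorph.addRight (-x) '' K := rfl
    have hc0 : Convex ℝ K0 := by simpa [hK0, add_comm] using hc.translate (-x)
    have hk0 : IsCompact K0 := hk.image (by fun_prop)
    have h00 : (0 : E3) ∈ interior K0 := by
      rw [he, ← Homeomorph.image_interior]; exact ⟨x, hx, add_neg_cancel x⟩
    obtain ⟨hv, hp⟩ := petty_translate (K := K) x
    rw [← hv, ← hp, vol_projBody hc0 hk0 h00, ← vol_cw hk0] at h
    obtain ⟨M, c, hM⟩ := eq_case (body_cw hc0 hk0 h00) h.le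
    refine ⟨cw.symm c + x, (cw.trans M).trans cw.symm, ?_⟩
    have e : K = (fun z => z + x) '' (cw.symm '' (cw '' K0)) := by
      rw [image_image (g := cw.symm), hK0, image_image, image_image]
      simp
    rw [e, hM, ← cw_ball]
    simp only [image_image]
    refine image_congr fun z _ => ?_
    simp only [LinearEquiv.trans_apply, map_add]
    abel
  · rintro ⟨a, T, rfl⟩
    set K0 := T '' Metric.closedBall (0 : E3) 1 with hK0
    have e : (fun x => a + T x) '' Metric.closedBall (0 : E3) 1 = (fun z => z + a) '' K0 := by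
      rw [hK0, image_image]
      simp only [add_comm]
    have hc0 : Convex ℝ K0 := (convex_closedBall _ _).linear_image T.toLinearMap
    have hk0 : IsCompact K0 := (isCompact_closedBall _ _).image T.toContinuousLinearEquiv.continuous
    have h00 : (0 : E3) ∈ interior K0 := by
      have := T.toContinuousLinearEquiv.toHomeomorph.image_interior (Metric.closedBall (0 : E3) 1)
      change (0 : E3) ∈ interior (T.toContinuousLinearEquiv.toHomeomorph '' _)
      rw [← this]
      exact ⟨0, Metric.ball_subset_interior_closedBall (Metric.mem_ball_self one_pos), by simp⟩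
    obtain ⟨hv, hp⟩ := petty_translate (K := K0) (-a)
    rw [neg_neg] at hv hp
    rw [e, hv, hp, vol_projBody hc0 hk0 h00, ← vol_cw hk0]
    have hM : cw '' K0 = ((cw.symm.trans T).trans cw) '' ball3 := by
      rw [hK0, ← cw_ball]
      simp [image_image]
    rw [hM]
    exact ellipsoid_attains _

end

end Vale.Agent.P237
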