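import Mathlib
import Vale.Agent.P237.Defs
import Vale.Agent.P237.Mixed.Fibre
import Vale.Agent.P237.Mixed.Level
import Vale.Agent.P254.BM

/-!
Minkowski's first inequality against a zonotope and Bonnesen's inequality, from Brunn-Minkowski.
-/

open MeasureTheory Set Pointwise

namespace Vale.Agent.P237

open Mx

noncomputable section

variable {ι : Type} [Fintype ι]

/-- Area formula for `pA` in the form used below. -/
theorem Mx.exists_pA_smul_eq {K : Set V3} (hK : Body K) {u : V3} (hu : u ≠ 0) :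
    ∃ d : ℝ, 0 < d ∧ ∀ r : ℝ, 0 ≤ r → pA K (r • u) = r * d := by
  obtain ⟨T, -, hf⟩ := exists_pA_eq hu
  have hK' := body_map hK T.symm
  refine ⟨|LinearMap.det (T : V3 →ₗ[ℝ] V3)| * volume.real (proj (T.symm '' K)),
    mul_pos (det_pos_abs T) ?_, fun r hr => by rw [hf K hK.1 hK.2.1 r hr]; ring⟩
  have hopen : IsOpenMap tl :=
    (LinearMap.funLeft ℝ ℝ (Fin.succ : Fin 2 → Fin 3)).isOpenMap_of_finiteDimensional
      (LinearMap.funLeft_surjective_of_injective _ _ _ (Fin.succ_injective _))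
  have hP : IsCompact (proj (T.symm '' K)) := hK'.2.1.image continuous_tl
  have hpos : 0 < volume (proj (T.symm '' K)) :=
    lt_of_lt_of_le ((hopen _ isOpen_interior).measure_pos volume ⟨_, 0, hK'.2.2, rfl⟩)
      (measure_mono (image_mono interior_subset))
  exact ENNReal.toReal_pos hpos.ne' hP.measure_lt_top.ne

theorem pA_pos {K : Set V3} (hK : Body K) {u : V3} (hu : u ≠ 0) : 0 < pA K u := by
  obtain ⟨d, hd, h⟩ := exists_pA_smul_eq hK hu
  have := h 1 zero_le_one
  rw [one_smul, one_mul] at this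
  rwa [this]

theorem pA_nonneg {K : Set V3} (hK : Body K) (u : V3) : 0 ≤ pA K u := by
  by_cases hu : u = 0
  · simp [hu, pA_zero]
  · exact (pA_pos hK hu).le

theorem pA_smul {K : Set V3} (hK : Body K) {c : ℝ} (hc : 0 ≤ c) (u : V3) :
    pA K (c • u) = c * pA K u := by
  by_cases hu : u = 0
  · simp [hu, pA_zero]
  obtain ⟨d, -, h⟩ := exists_pA_smul_eq hK hu
  have := h 1 zero_le_one
  rw [one_smul, one_mul] at this
  rw [h c hc, this]

theorem vol_pos {K : Set V3} (hK : Body K) : 0 < volume.real K :=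
  ENNReal.toReal_pos (lt_of_lt_of_le (isOpen_interior.measure_pos volume ⟨0, hK.2.2⟩)
    (measure_mono interior_subset)).ne' hK.2.1.measure_lt_top.ne

theorem Mx.zon_eq_sum (s : ι → V3) : zon s = ∑ i, seg (s i) := by
  ext x
  rw [Set.mem_fintype_sum]
  constructor
  · rintro ⟨c, hc, rfl⟩
    exact ⟨fun i => c i • s i, fun i => ⟨c i, hc i (mem_univ i), rfl⟩, rfl⟩
  · rintro ⟨g, hg, rfl⟩
    choose c hc hcg using hg
    refine ⟨c, fun i _ => hc i, ?_⟩
    simp only [← hcg]

theorem Mx.zon_facts (s : ι → V3) : Convex ℝ (zon s) ∧ IsCompact (zon s) ∧ (0 : V3) ∈ zon s := by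
  refine ⟨?_, (isCompact_univ_pi fun _ => isCompact_Icc).image (by fun_prop),
    ⟨0, fun i _ => by simp, by simp⟩⟩
  exact (convex_pi fun i _ => convex_Icc (-1 : ℝ) 1).linear_image (Fintype.linearCombination ℝ s)

theorem Mx.zon_smul_sum (s : ι → V3) (ε : ℝ) : ε • zon s = ∑ i, seg (ε • s i) := by
  rw [← zon_eq_sum (fun i => ε • s i), zon, zon, ← image_smul, image_image]
  simp [Finset.smul_sum, smul_comm ε]

/-- A segment is absorbed by a body. -/
theorem Mx.exists_seg_subset {K : Set V3} (hK : Body K) (s : ι → V3) :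
    ∃ C : ℝ, 0 < C ∧ ∀ i, seg (s i) ⊆ C • K := by
  obtain ⟨r, hr, hball⟩ := Metric.mem_nhds_iff.1 (mem_interior_iff_mem_nhds.1 hK.2.2)
  have hM : ∀ i, ‖s i‖ ≤ ∑ j, ‖s j‖ := fun i =>
    Finset.single_le_sum (fun j _ => norm_nonneg (s j)) (Finset.mem_univ i)
  set M := ∑ j, ‖s j‖ with hMdef
  have hM0 : 0 ≤ M := Finset.sum_nonneg fun j _ => norm_nonneg (s j)
  refine ⟨(M + 1) / r, by positivity, fun i => ?_⟩
  rintro _ ⟨c, hc, rfl⟩
  rw [mem_smul_set_iff_inv_smul_mem₀ (by positivity)]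
  refine hball (mem_ball_zero_iff.2 ?_)
  rw [norm_smul, norm_smul, norm_inv, Real.norm_of_nonneg (show (0 : ℝ) ≤ (M + 1) / r by positivity),
    Real.norm_eq_abs, inv_div, div_mul_eq_mul_div, div_lt_iff₀ (by positivity)]
  have h1 : |c| * ‖s i‖ ≤ 1 * M :=
    mul_le_mul (abs_le.2 hc) (hM i) (norm_nonneg _) zero_le_one
  nlinarith

/-- The volume added by a small multiple of a zonotope. -/
theorem Mx.exists_vol_add_small {K : Set V3} (hK : Body K) (s : ι → V3) :
    ∃ D : ℝ, ∀ ε ∈ Ioc (0 : ℝ) 1,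
      volume.real (K + ε • zon s) ≤ volume.real K + 3 * ε * mixed K s * (1 + ε * D) ^ 2 := by
  classical
  obtain ⟨C, hC, hseg⟩ := exists_seg_subset hK s
  refine ⟨Fintype.card ι * C, fun ε hε => ?_⟩
  have hε0 := hε.1.le
  rw [zon_smul_sum]
  set c := 1 + ε * ((Fintype.card ι : ℝ) * C) with hc
  have key : ∀ F : Finset ι,
      (Convex ℝ (K + ∑ i ∈ F, seg (ε • s i)) ∧ IsCompact (K + ∑ i ∈ F, seg (ε • s i)) ∧
        K + ∑ i ∈ F, seg (ε • s i) ⊆ (1 + ε * (F.card * C)) • K) ∧
      volume.real (K + ∑ i ∈ F, seg (ε • s i))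
        ≤ volume.real K + 2 * ε * c ^ 2 * ∑ i ∈ F, pA K (s i) := by
    intro F
    induction F using Finset.induction_on with
    | empty =>
      refine ⟨⟨by simpa using hK.1, by simpa using hK.2.1, by simp⟩, by simp⟩
    | @insert a F ha ih =>
      obtain ⟨⟨h1, h2, h3⟩, h4⟩ := ih
      rw [Finset.sum_insert ha, show K + (seg (ε • s a) + ∑ i ∈ F, seg (ε • s i))
        = K + (∑ i ∈ F, seg (ε • s i)) + seg (ε • s a) by rw [add_assoc, add_comm (seg (ε • s a))]]
      refine ⟨⟨h1.add (convex_seg _), h2.add (isCompact_seg _), ?_⟩, ?_⟩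
      · have h5 : seg (ε • s a) ⊆ (ε * C) • K := by
          rintro _ ⟨t, ht, rfl⟩
          rw [mul_smul]
          refine ⟨t • s a, hseg a ⟨t, ht, rfl⟩, ?_⟩
          simp [smul_smul, mul_comm]
        refine (add_subset_add h3 h5).trans ?_
        rw [← hK.1.add_smul (by positivity) (by positivity), Finset.card_insert_of_notMem ha]
        refine Eq.subset ?_
        congr 1
        push_cast
        ring
      · have hFc : (1 + ε * ((F.card : ℝ) * C)) ≤ c := by
          have : (F.card : ℝ) ≤ Fintype.card ι := by exact_mod_cast F.card_le_univ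
          rw [hc]
          have := mul_le_mul_of_nonneg_left (mul_le_mul_of_nonneg_right this hC.le) hε0
          linarith
        have hmono : pA (K + ∑ i ∈ F, seg (ε • s i)) (ε • s a)
            ≤ c ^ 2 * (ε * pA K (s a)) := by
          refine (pA_mono h1 h2 (hK.1.smul _) (hK.2.1.smul _) h3 _).trans ?_
          rw [pA_dilate hK.1 hK.2.1 (by positivity), pA_smul hK hε0]
          exact mul_le_mul_of_nonneg_right (pow_le_pow_left₀ (by positivity) hFc 2)
            (mul_nonneg hε0 (pA_nonneg hK _))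
        have e : volume.real (K + ∑ i ∈ F, seg (ε • s i) + seg (ε • s a))
            = volume.real (K + ∑ i ∈ F, seg (ε • s i))
              + 2 * pA (K + ∑ i ∈ F, seg (ε • s i)) (ε • s a) := by
          rw [pA]; ring
        rw [e, Finset.sum_insert ha]
        nlinarith
  refine (key Finset.univ).2.trans (le_of_eq ?_)
  rw [mixed, hc]; ring

/-- Concavity of `t ↦ vol (K + t L)^(1/3)` with the derivative at zero bounded by `mixed`. -/
theorem vol_add_le {K : Set V3} (hK : Body K) (s : ι → V3) {a : ℝ} (ha : 0 ≤ a)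
    (hV : a ^ 3 = volume.real K) :
    volume.real (K + zon s) ≤ (a + mixed K s / a ^ 2) ^ 3 := by
  have hV0 := vol_pos hK
  have ha0 : 0 < a := by
    rcases ha.eq_or_lt with h | h
    · rw [← h] at hV; norm_num at hV; linarith
    · exact h
  obtain ⟨hZ, hZc, hZ0⟩ := zon_facts s
  set M := K + zon s with hM
  have hMc : IsCompact M := hK.2.1.add hZc
  set d := volume.real M ^ ((3 : ℝ)⁻¹) with hd
  have hd3 : d ^ 3 = volume.real M := by
    rw [hd, show ((3 : ℝ)⁻¹) = (((3 : ℕ) : ℝ)⁻¹) by norm_num,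
      Real.rpow_inv_natCast_pow measureReal_nonneg (by norm_num)]
  have hm : 0 ≤ mixed K s :=
    mul_nonneg (by norm_num) (Finset.sum_nonneg fun i _ => pA_nonneg hK _)
  have hVM : volume.real K ≤ volume.real M :=
    measureReal_mono (fun x hx => ⟨x, hx, 0, hZ0, add_zero x⟩) hMc.measure_lt_top.ne
  have had : a ≤ d := le_of_pow_le_pow_left₀ (n := 3) (by norm_num) (Real.rpow_nonneg measureReal_nonneg _)
    (by rw [hd3, hV]; exact hVM)
  obtain ⟨D, hD⟩ := exists_vol_add_small hK s
  have key : ∀ ε ∈ Ioc (0 : ℝ) 1, a ^ 2 * (d - a) ≤ mixed K s * (1 + ε * D) ^ 2 := by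
    intro ε hε
    have h0K : (0 : V3) ∈ K := interior_subset hK.2.2
    have hbm := Vale.P254.brunn_minkowski hK.2.1 hMc hK.1 (hK.1.add hZ) h0K
      ⟨0, h0K, 0, hZ0, add_zero 0⟩ (hK.2.1.add (hZc.smul ε)) ha0 (ha0.trans_le had)
      (show (0 : ℝ) ≤ 1 - ε by linarith [hε.2]) hε.1.le (by linarith) hV.le hd3.le
      (by
        rintro x hx _ ⟨k, hk, z, hz, rfl⟩
        refine ⟨(1 - ε) • x + ε • k, hK.1 hx hk (by linarith [hε.2]) hε.1.le (by ring), ε • z,
          smul_mem_smul_set hz, ?_⟩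
        simp only [smul_add, add_assoc])
    have h2 := hbm.trans (hD ε hε)
    have h3 : a ^ 3 + 3 * ε * (a ^ 2 * (d - a)) ≤ ((1 - ε) * a + ε * d) ^ 3 := by
      nlinarith [mul_nonneg (mul_nonneg ha (sq_nonneg (ε * (d - a)))) (zero_le_one' ℝ),
        pow_nonneg (mul_nonneg hε.1.le (sub_nonneg.2 had)) 3]
    rw [← hV] at h2
    refine le_of_mul_le_mul_left ?_ (show (0 : ℝ) < 3 * ε by linarith [hε.1])
    linarith
  have hlim : a ^ 2 * (d - a) ≤ mixed K s := by
    have ht : Filter.Tendsto (fun ε : ℝ => mixed K s * (1 + ε * D) ^ 2)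
        (nhdsWithin 0 (Ioi 0)) (nhds (mixed K s)) := by
      have h : Continuous fun ε : ℝ => mixed K s * (1 + ε * D) ^ 2 := by fun_prop
      simpa using (h.tendsto 0).mono_left nhdsWithin_le_nhds
    exact ge_of_tendsto ht (Filter.eventually_of_mem (Ioc_mem_nhdsGT zero_lt_one) key)
  rw [← hd3]
  refine pow_le_pow_left₀ (by linarith) ?_ 3
  rw [le_div_iff₀' (by positivity) |>.symm] at hlim
  linarith

/-- Minkowski's first inequality. -/
theorem minkowski {K : Set V3} (hK : Body K) (s : ι → V3) :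
    volume.real K ^ 2 * volume.real (zon s) ≤ mixed K s ^ 3 := by
  have hm : 0 ≤ mixed K s :=
    mul_nonneg (by norm_num) (Finset.sum_nonneg fun i _ => pA_nonneg hK _)
  obtain ⟨hZ, hZc, hZ0⟩ := zon_facts s
  rcases (measureReal_nonneg (μ := volume) (s := zon s)).eq_or_lt with h0 | h0
  · rw [← h0, mul_zero]; positivity
  have hV0 := vol_pos hK
  have e3 : ((3 : ℝ)⁻¹) = (((3 : ℕ) : ℝ)⁻¹) := by norm_num
  set a := volume.real K ^ ((3 : ℝ)⁻¹) with ha
  set b := volume.real (zon s) ^ ((3 : ℝ)⁻¹) with hb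
  have ha0 : 0 < a := Real.rpow_pos_of_pos hV0 _
  have hb0 : 0 < b := Real.rpow_pos_of_pos h0 _
  have ha3 : a ^ 3 = volume.real K := by
    rw [ha, e3, Real.rpow_inv_natCast_pow hV0.le (by norm_num)]
  have hb3 : b ^ 3 = volume.real (zon s) := by
    rw [hb, e3, Real.rpow_inv_natCast_pow h0.le (by norm_num)]
  have hbm := Vale.P254.brunn_minkowski hK.2.1 hZc hK.1 hZ (interior_subset hK.2.2) hZ0
    (hK.2.1.add hZc) ha0 hb0 (zero_le_one' ℝ) (zero_le_one' ℝ) (by norm_num) ha3.le hb3.le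
    (fun x hx y hy => by simpa using add_mem_add hx hy)
  have h := hbm.trans (vol_add_le hK s ha0.le ha3)
  rw [one_mul, one_mul] at h
  have h1 : b ≤ mixed K s / a ^ 2 := by
    have := le_of_pow_le_pow_left₀ (by norm_num) (by positivity) h
    linarith
  rw [le_div_iff₀ (by positivity)] at h1
  calc volume.real K ^ 2 * volume.real (zon s) = (b * a ^ 2) ^ 3 := by rw [← ha3, ← hb3]; ring
    _ ≤ _ := pow_le_pow_left₀ (by positivity) h1 3

/-- Bonnesen's inequality. -/
theorem bonnesen {K L : Set V3} (hK : Body K) (hL : Body L) {u : V3} (hu : u ≠ 0) :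
    (Real.sqrt (pA K u) + Real.sqrt (pA L u)) ^ 2 *
        (volume.real K / pA K u + volume.real L / pA L u) ≤ volume.real (K + L) := by
  obtain ⟨T, -, hf⟩ := exists_pA_eq hu
  set d := |LinearMap.det (T : V3 →ₗ[ℝ] V3)| with hd
  have hd0 : 0 < d := det_pos_abs T
  have eK := hf K hK.1 hK.2.1 1 zero_le_one
  have eL := hf L hL.1 hL.2.1 1 zero_le_one
  rw [one_smul, one_mul] at eK eL
  set K' := T.symm '' K
  set L' := T.symm '' L
  have hA : 0 < volume.real (proj K') := by
    have := pA_pos hK hu; rw [eK] at this; exact (pos_iff_pos_of_mul_pos this).1 hd0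
  have hB : 0 < volume.real (proj L') := by
    have := pA_pos hL hu; rw [eL] at this; exact (pos_iff_pos_of_mul_pos this).1 hd0
  have hvK : volume.real K = d * volume.real K' := by rw [← volume_real_image, image_symm_image']
  have hvL : volume.real L = d * volume.real L' := by rw [← volume_real_image, image_symm_image']
  have hKL : T '' (K' + L') = K + L := by rw [image_add T, image_symm_image', image_symm_image']
  have h := bonnesen_axis (body_map hK T.symm).1 (body_map hK T.symm).2.1 (body_map hL T.symm).1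
    (body_map hL T.symm).2.1 hA hB
  have hvKL : volume.real (K + L) = d * volume.real (K' + L') := by rw [← hKL, volume_real_image]
  rw [hvKL, eK, eL, hvK, hvL, Real.sqrt_mul hd0.le, Real.sqrt_mul hd0.le, ← mul_add, mul_pow,
    Real.sq_sqrt hd0.le, mul_div_mul_left _ _ hd0.ne', mul_div_mul_left _ _ hd0.ne', mul_assoc]
  exact mul_le_mul_of_nonneg_left h hd0.le

end

end Vale.Agent.P237
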