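import Vale.Agent.P237.Main
import Vale.Agent.P237.ProjBody

/-!
Petty's inequality in Euclidean three-space: the coordinate form transported.
-/

open MeasureTheory Set Pointwise
open scoped RealInnerProductSpace

namespace Vale.Agent.P237

noncomputable section

lemma inner_eq_dot (u y : E3) : ⟪u, y⟫ = WithLp.ofLp u ⬝ᵥ WithLp.ofLp y := by
  rw [EuclideanSpace.inner_eq_star_dotProduct, star_trivial, dotProduct_comm]

lemma projBody_translate (K : Set E3) (c : E3) :
    projBody ((fun x => x + c) '' K) = projBody K := by
  unfold projBody planeArea projAlong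
  congr 1
  funext y
  refine propext (forall_congr' fun u => imp_congr_right fun _ => ?_)
  rw [image_image]
  simp only [map_add]
  rw [← image_image (fun z => z + _) (Submodule.orthogonalProjectionOnto (ℝ ∙ u)ᗮ),
    image_add_right, measureReal_def, measure_preimage_add_right, ← measureReal_def]

lemma petty_euclid {K : Set E3} (hc : Convex ℝ K) (hk : IsCompact K) (h0 : (0 : E3) ∈ interior K) :
    pc * volume.real K ^ 2 ≤ volume.real (projBody K) := by
  set K' : Set V3 := WithLp.ofLp '' K with hK'
  have hb : Body K' := by
    refine ⟨hc.linear_image (WithLp.linearEquiv 2 ℝ V3).toLinearMap, hk.image (PiLp.continuous_ofLp 2 _), ?_⟩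
    have := (PiLp.homeomorph 2 fun _ : Fin 3 => ℝ).image_interior K
    rw [show (PiLp.homeomorph 2 fun _ : Fin 3 => ℝ) '' K = K' from rfl] at this
    rw [← this]
    exact ⟨0, h0, rfl⟩
  have hvK : volume.real K' = volume.real K := by
    have e : K = WithLp.ofLp ⁻¹' K' := (preimage_image_eq K (WithLp.ofLp_injective 2)).symm
    conv_rhs => rw [e]
    rw [measureReal_def, measureReal_def,
      (PiLp.volume_preserving_ofLp (Fin 3)).measure_preimage
        (hb.2.1.measurableSet.nullMeasurableSet)]
  set Q : Set V3 := {x | ∀ u, u ⬝ᵥ x ≤ pA K' u} with hQ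
  have hQm : MeasurableSet Q := by
    refine IsClosed.measurableSet ?_
    rw [hQ, ofPred_forall]
    exact isClosed_iInter fun u => isClosed_le (by unfold dotProduct; fun_prop) continuous_const
  have hP : projBody K = WithLp.ofLp ⁻¹' Q := by
    ext y
    refine ⟨fun hy u => ?_, fun hy u hu => ?_⟩
    · rcases eq_or_ne u 0 with rfl | hu
      · simpa using pA_nonneg hb 0
      · set v : E3 := WithLp.toLp 2 u with hv
        have hv0 : v ≠ 0 := fun h => hu (congrArg WithLp.ofLp h)
        have hn : 0 < ‖v‖ := norm_pos_iff.2 hv0
        have h1 : ‖(‖v‖⁻¹ • v)‖ = 1 := by simp [norm_smul, hn.ne']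
        have h2 := hy _ h1
        unfold planeArea projAlong perpPlane at h2
        rw [← pA_eq_proj hc hk h1, inner_eq_dot, WithLp.ofLp_smul,
          pA_smul hb (inv_nonneg.2 hn.le), smul_dotProduct, smul_eq_mul] at h2
        exact le_of_mul_le_mul_left h2 (inv_pos.2 hn)
    · unfold planeArea projAlong perpPlane
      rw [inner_eq_dot, ← pA_eq_proj hc hk hu]
      exact hy (WithLp.ofLp u)
  rw [hP, measureReal_def (s := WithLp.ofLp ⁻¹' Q),
    (PiLp.volume_preserving_ofLp (Fin 3)).measure_preimage hQm.nullMeasurableSet,
    ← measureReal_def, ← hvK]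
  exact petty_body hb

lemma petty_three {K : Set E3} (hc : Convex ℝ K) (hk : IsCompact K) (hi : (interior K).Nonempty) :
    pc * volume.real K ^ 2 ≤ volume.real (projBody K) := by
  obtain ⟨x, hx⟩ := hi
  have he : (fun z => z + -x) '' K = Homeomorph.addRight (-x) '' K := rfl
  have h := petty_euclid (K := (fun z => z + -x) '' K)
    (by simpa [add_comm] using hc.translate (-x)) (hk.image (by fun_prop))
    (by rw [he, ← Homeomorph.image_interior]; exact ⟨x, hx, add_neg_cancel x⟩)
  rw [projBody_translate] at h
  have hv : volume.real ((fun z => z + -x) '' K) = volume.real K := by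
    rw [image_add_right, measureReal_def, measure_preimage_add_right, ← measureReal_def]
  rwa [hv] at h

end

end Vale.Agent.P237
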