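import Vale.Agent.P237.Defs
import Vale.Agent.P237.Zonotope.Area

open MeasureTheory Set Pointwise Matrix

namespace Vale.Agent.P237

noncomputable section

variable {ι κ : Type} [Fintype ι] [Fintype κ]

theorem zon_convex (s : ι → V3) : Convex ℝ (zon s) := Zono.box_convex s

theorem zon_compact (s : ι → V3) : IsCompact (zon s) := Zono.box_compact s

theorem zon_neg_mem (s : ι → V3) {x : V3} (hx : x ∈ zon s) : -x ∈ zon s := by
  obtain ⟨c, hc, rfl⟩ := hx
  refine ⟨-c, fun i _ => ?_, by simp⟩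
  have := hc i trivial
  exact ⟨by simp only [Pi.neg_apply]; linarith [this.2], by simp only [Pi.neg_apply]; linarith [this.1]⟩

theorem zon_body (s : ι → V3) (h : 0 < volume.real (zon s)) : Body (zon s) := by
  refine ⟨zon_convex s, zon_compact s, ?_⟩
  obtain ⟨x, hx⟩ : (interior (zon s)).Nonempty := by
    rw [nonempty_iff_ne_empty]
    intro he
    have hf : frontier (zon s) = zon s := by
      rw [(zon_compact s).isClosed.frontier_eq, he, sdiff_empty]
    have h0 := (zon_convex s).addHaar_frontier (volume : Measure V3)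
    rw [hf] at h0
    simp [measureReal_def, h0] at h
  have hneg : -x ∈ interior (zon s) := by
    have e : (Homeomorph.neg V3) ⁻¹' zon s = zon s := by
      ext y
      exact ⟨fun hy => by simpa using zon_neg_mem s hy, fun hy => zon_neg_mem s hy⟩
    have h2 := (Homeomorph.neg V3).preimage_interior (zon s)
    rw [e] at h2
    rw [← h2]
    show -(-x) ∈ interior (zon s)
    simpa using hx
  have := (zon_convex s).interior hx hneg (show (0:ℝ) ≤ 1 / 2 by norm_num)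
    (show (0:ℝ) ≤ 1 / 2 by norm_num) (by norm_num)
  simpa using this

theorem dot_le_supp (s : ι → V3) (u : V3) {x : V3} (hx : x ∈ zon s) : u ⬝ᵥ x ≤ supp s u := by
  obtain ⟨c, hc, rfl⟩ := hx
  simp only [dotProduct_sum, dotProduct_smul, smul_eq_mul]
  refine Finset.sum_le_sum fun i _ => (le_abs_self _).trans ?_
  rw [abs_mul]
  exact mul_le_of_le_one_left (abs_nonneg _) (abs_le.2 (hc i trivial))

theorem exists_dot_eq_supp (s : ι → V3) (u : V3) : ∃ x ∈ zon s, u ⬝ᵥ x = supp s u := by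
  refine ⟨_, ⟨fun i => (SignType.sign (u ⬝ᵥ s i) : ℝ), fun i _ => ?_, rfl⟩, ?_⟩
  · rcases lt_trichotomy (u ⬝ᵥ s i) 0 with h | h | h <;> simp [h]
  · simp only [dotProduct_sum, dotProduct_smul, smul_eq_mul, sign_mul_self]
    rfl

theorem subset_zon_of_dot_le (s : ι → V3) {x : V3} (h : ∀ u, u ⬝ᵥ x ≤ supp s u) : x ∈ zon s := by
  by_contra hx
  obtain ⟨f, c, hf, hfx⟩ := geometric_hahn_banach_closed_point (zon_convex s)
    (zon_compact s).isClosed hx
  set u : V3 := fun i => f (Pi.single i 1) with hu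
  have e : ∀ y : V3, f y = u ⬝ᵥ y := by
    intro y
    have hy : y = ∑ i, y i • (Pi.single i 1 : V3) := pi_eq_sum_univ' y
    conv_lhs => rw [hy]
    simp [hu, dotProduct, map_sum, mul_comm]
  obtain ⟨y, hy, hyu⟩ := exists_dot_eq_supp s u
  have h1 := hf y hy
  rw [e, hyu] at h1
  rw [e] at hfx
  linarith [h u]

theorem supp_nonneg (s : ι → V3) (u : V3) : 0 ≤ supp s u :=
  Finset.sum_nonneg fun _ _ => abs_nonneg _

theorem supp_smul (s : ι → V3) {c : ℝ} (hc : 0 ≤ c) (u : V3) : supp (c • s) u = c * supp s u := by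
  simp [supp, Finset.mul_sum, dotProduct_smul, abs_mul, abs_of_nonneg hc]

theorem zon_smul (s : ι → V3) (c : ℝ) : zon (c • s) = c • zon s :=
  (Zono.box_map (LinearMap.lsmul ℝ V3 c) s).symm

theorem zon_map (s : ι → V3) (T : V3 →ₗ[ℝ] V3) : T '' zon s = zon (fun i => T (s i)) :=
  Zono.box_map T s

theorem supp_piGen (s : ι → V3) (u : V3) :
    supp (piGen s) u = 2 * ∑ i, ∑ j, |u ⬝ᵥ s i ⨯₃ s j| := by
  simp only [supp, piGen, dotProduct_smul, smul_eq_mul, abs_mul, Fintype.sum_prod_type,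
    Finset.mul_sum]
  norm_num

theorem pA_zon (s : ι → V3) (u : V3) : pA (zon s) u = supp (piGen s) u := by
  rw [supp_piGen, pA]
  have h : volume.real (zon s + seg u) = volume.real (zon s) + 4 * ∑ i, ∑ j, |u ⬝ᵥ s i ⨯₃ s j| :=
    Zono.volume_add_segm s u
  rw [h]
  ring

theorem vol_zon (s : ι → V3) :
    volume.real (zon s) = 2 / 3 * ∑ i, supp (piGen s) (s i) := by
  have h : volume.real (zon s) = 4 / 3 * ∑ i, ∑ j, ∑ k, |s i ⬝ᵥ s j ⨯₃ s k| := Zono.volume_box s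
  simp only [h, supp_piGen, ← Finset.mul_sum]
  ring

theorem supp_symm (s : ι → V3) (t : κ → V3) : ∑ i, supp t (s i) = ∑ j, supp s (t j) := by
  simp only [supp]
  rw [Finset.sum_comm]
  simp [dotProduct_comm]

theorem cross_dot (a b c : V3) : a ⨯₃ b ⬝ᵥ c = a ⬝ᵥ b ⨯₃ c := by
  rw [dotProduct_comm, triple_product_permutation a b c, triple_product_permutation b c a]

theorem cross_cross_cross (a b c d : V3) :
    (a ⨯₃ b) ⨯₃ (c ⨯₃ d) = (a ⬝ᵥ b ⨯₃ d) • c - (a ⬝ᵥ b ⨯₃ c) • d := by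
  rw [cross_cross_eq_smul_sub_smul', dotProduct_comm c, cross_dot, cross_dot]

theorem cross_cross_map (T : V3 →ₗ[ℝ] V3) (a b c d : V3) :
    (T a ⨯₃ T b) ⨯₃ (T c ⨯₃ T d) = LinearMap.det T • T ((a ⨯₃ b) ⨯₃ (c ⨯₃ d)) := by
  rw [cross_cross_cross, cross_cross_cross, Zono.triple_map, Zono.triple_map, map_sub, map_smul,
    map_smul, smul_sub, smul_smul, smul_smul]

theorem e0_dot (v : V3) : e0 ⬝ᵥ v = v 0 := by
  simp [e0]

theorem map_zero_eq (T : V3 ≃ₗ[ℝ] V3) (v : V3) :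
    T v 0 = (fun j => T (Pi.single j 1) 0) ⬝ᵥ v := by
  have hv : v = ∑ i, v i • (Pi.single i 1 : V3) := pi_eq_sum_univ' v
  conv_lhs => rw [hv]
  simp [dotProduct, map_sum, Finset.sum_apply, mul_comm]

theorem supp_map (s : ι → V3) (T : V3 ≃ₗ[ℝ] V3) :
    supp (fun i => T (s i)) e0 = supp s (fun j => T (Pi.single j 1) 0) := by
  refine Finset.sum_congr rfl fun i _ => ?_
  dsimp only
  rw [e0_dot, map_zero_eq T]

omit [Fintype ι] in
theorem piGen_piGen (s : ι → V3) (p q : ι × ι) :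
    piGen (piGen s) (p, q) = (8 : ℝ) • ((s p.1 ⨯₃ s p.2) ⨯₃ (s q.1 ⨯₃ s q.2)) := by
  simp only [piGen, map_smul, LinearMap.smul_apply, smul_smul]
  norm_num

theorem supp_piGen_piGen_map (s : ι → V3) (T : V3 ≃ₗ[ℝ] V3) :
    supp (piGen (piGen fun i => T (s i))) e0 =
      |LinearMap.det (T : V3 →ₗ[ℝ] V3)| *
        supp (piGen (piGen s)) (fun j => T (Pi.single j 1) 0) := by
  simp only [supp, Finset.mul_sum]
  refine Finset.sum_congr rfl fun ⟨p, q⟩ _ => ?_
  have h := cross_cross_map (T : V3 →ₗ[ℝ] V3) (s p.1) (s p.2) (s q.1) (s q.2)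
  simp only [LinearEquiv.coe_coe] at h
  rw [piGen_piGen, piGen_piGen, h]
  rw [← abs_mul, e0_dot, dotProduct_smul, smul_eq_mul, ← map_zero_eq]
  simp [mul_left_comm]

theorem vol_piGen_map (s : ι → V3) (T : V3 ≃ₗ[ℝ] V3) :
    volume.real (zon (piGen fun i => T (s i))) =
      LinearMap.det (T : V3 →ₗ[ℝ] V3) ^ 2 * volume.real (zon (piGen s)) := by
  rw [vol_zon, vol_zon]
  simp only [supp, Finset.mul_sum]
  refine Finset.sum_congr rfl fun p _ => Finset.sum_congr rfl fun ⟨q, r⟩ _ => ?_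
  have e : ∀ t : ι → V3, piGen t p ⬝ᵥ piGen (piGen t) (q, r)
      = 16 * (t p.1 ⨯₃ t p.2 ⬝ᵥ (t q.1 ⨯₃ t q.2) ⨯₃ (t r.1 ⨯₃ t r.2)) := fun t => by
    rw [piGen_piGen]
    simp only [piGen, dotProduct_smul, smul_dotProduct, smul_eq_mul]
    ring
  have h : T (s p.1) ⨯₃ T (s p.2) ⬝ᵥ ((T (s q.1) ⨯₃ T (s q.2)) ⨯₃ (T (s r.1) ⨯₃ T (s r.2)))
      = LinearMap.det (T : V3 →ₗ[ℝ] V3) ^ 2
        * (s p.1 ⨯₃ s p.2 ⬝ᵥ (s q.1 ⨯₃ s q.2) ⨯₃ (s r.1 ⨯₃ s r.2)) := by
    have h1 := cross_cross_map (T : V3 →ₗ[ℝ] V3) (s q.1) (s q.2) (s r.1) (s r.2)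
    simp only [LinearEquiv.coe_coe] at h1
    set X := (s q.1 ⨯₃ s q.2) ⨯₃ (s r.1 ⨯₃ s r.2)
    have h2 := Zono.triple_map (T : V3 →ₗ[ℝ] V3) X (s p.1) (s p.2)
    simp only [LinearEquiv.coe_coe] at h2
    rw [h1, dotProduct_smul, smul_eq_mul, dotProduct_comm, h2, dotProduct_comm X]
    ring
  rw [e, e, h, mul_left_comm 16, abs_mul, abs_of_nonneg (sq_nonneg _)]
  ring

theorem vol_map (K : Set V3) (T : V3 ≃ₗ[ℝ] V3) :
    volume.real (T '' K) = |LinearMap.det (T : V3 →ₗ[ℝ] V3)| * volume.real K := by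
  rw [measureReal_def, measureReal_def]
  show (volume ((T : V3 →ₗ[ℝ] V3) '' K)).toReal = _
  rw [Measure.addHaar_image_linearMap, ENNReal.toReal_mul, ENNReal.toReal_ofReal (abs_nonneg _)]

end

end Vale.Agent.P237
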