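import Vale.Agent.P237.Defs
import Vale.Agent.P237.Zonotope
import Vale.Agent.P254.BM

/-!
Slices and planar Brunn-Minkowski.  For a symmetric body `Z` and `u ⊥ e0` the number `pA Z u` is
at least the integral of the breadths of the slices, so the projection of the projection body
contains a Minkowski sum of rotated difference bodies of slices.  These shrink as `|t|` grows.
-/

open MeasureTheory Set Pointwise Filter Topology

namespace Vale.Agent.P237

noncomputable section

namespace SliceAux

/-- The segment `[-u, u]` in any dimension. -/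
def sg {n : ℕ} (u : Fin n → ℝ) : Set (Fin n → ℝ) := (fun t : ℝ => t • u) '' Icc (-1) 1

theorem isCompact_sg {n : ℕ} (u : Fin n → ℝ) : IsCompact (sg u) :=
  isCompact_Icc.image (by fun_prop)

/-- The slice of a set at first coordinate `t`. -/
def sl {n : ℕ} (K : Set (Fin (n + 1) → ℝ)) (t : ℝ) : Set (Fin n → ℝ) :=
  {y | (Fin.cons t y : Fin (n + 1) → ℝ) ∈ K}

/-- The line fibre of a set over `y`. -/
def fib {n : ℕ} (K : Set (Fin (n + 1) → ℝ)) (y : Fin n → ℝ) : Set ℝ :=
  {t | (Fin.cons t y : Fin (n + 1) → ℝ) ∈ K}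

theorem volume_eq_lintegral {n : ℕ} {K : Set (Fin (n + 1) → ℝ)} (hK : MeasurableSet K) :
    (volume K = ∫⁻ t, volume (sl K t)) ∧ (volume K = ∫⁻ y, volume (fib K y)) ∧
      Measurable fun t => volume (sl K t) := by
  set e := MeasurableEquiv.piFinSuccAbove (fun _ : Fin (n + 1) => ℝ) 0 with he
  have hmp : MeasurePreserving e :=
    volume_preserving_piFinSuccAbove (fun _ : Fin (n + 1) => ℝ) 0
  have hpre : volume K = volume (e.symm ⁻¹' K) :=
    ((hmp.symm e).measure_preimage hK.nullMeasurableSet).symm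
  have hm : MeasurableSet (e.symm ⁻¹' K) := e.symm.measurable hK
  have hsl : ∀ t, sl K t = Prod.mk t ⁻¹' (e.symm ⁻¹' K) := by
    intro t
    ext y
    simp [sl, he, MeasurableEquiv.piFinSuccAbove_symm_apply, Fin.consEquiv]
  have hfib : ∀ y, fib K y = (fun t => (t, y)) ⁻¹' (e.symm ⁻¹' K) := by
    intro y
    ext t
    simp [fib, he, MeasurableEquiv.piFinSuccAbove_symm_apply, Fin.consEquiv]
  simp only [hsl, hfib]
  rw [hpre, Measure.volume_eq_prod]
  exact ⟨Measure.prod_apply hm, Measure.prod_apply_symm hm, measurable_measure_prodMk_left hm⟩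

theorem sg_single {n : ℕ} (s : ℝ) (z : Fin (n + 1) → ℝ) :
    z + s • (Pi.single 0 1 : Fin (n + 1) → ℝ) = Fin.cons (z 0 + s) (Fin.tail z) := by
  funext i
  refine Fin.cases ?_ (fun j => ?_) i
  · simp
  · simp [Fin.tail]

/-- Adding the first unit segment adds twice the volume of the projection. -/
theorem volume_add_sg {n : ℕ} {K : Set (Fin (n + 1) → ℝ)} (hK : IsCompact K) (hc : Convex ℝ K) :
    volume (K + sg (Pi.single 0 1)) = volume K + 2 * volume (Fin.tail '' K) := by
  classical
  have hP : MeasurableSet (Fin.tail '' K) :=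
    (hK.image (continuous_pi fun i : Fin n => continuous_apply (Fin.succ i))).measurableSet
  rw [(volume_eq_lintegral (hK.add (isCompact_sg _)).measurableSet).2.1,
    (volume_eq_lintegral hK.measurableSet).2.1, ← lintegral_indicator_one hP,
    ← lintegral_const_mul' _ _ (by norm_num),
    ← lintegral_add_right _ ((measurable_one.indicator hP).const_mul _)]
  refine lintegral_congr fun y => ?_
  have hfib : fib (K + sg (Pi.single 0 1)) y = fib K y + Icc (-1) 1 := by
    ext t
    simp only [fib, sg, Set.mem_ofPred_eq, Set.mem_add, Set.mem_image]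
    constructor
    · rintro ⟨z, hz, _, ⟨s, hs, rfl⟩, h⟩
      rw [sg_single] at h
      have h0 := congrFun h 0
      have h1 : Fin.tail z = y := by simpa using congrArg Fin.tail h
      simp only [Fin.cons_zero] at h0
      exact ⟨z 0, by rwa [← h1, Fin.cons_self_tail], s, hs, h0⟩
    · rintro ⟨r, hr, s, hs, rfl⟩
      exact ⟨_, hr, _, ⟨s, hs, rfl⟩, by rw [sg_single]; simp⟩
  rw [hfib]
  rcases (fib K y).eq_empty_or_nonempty with h0 | hne
  · have : y ∉ Fin.tail '' K := by
      rintro ⟨z, hz, rfl⟩
      have : z 0 ∈ fib K (Fin.tail z) := by simp [fib, hz]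
      simp [h0] at this
    simp [h0, indicator_of_notMem this]
  · have hy : y ∈ Fin.tail '' K := ⟨_, hne.some_mem, Fin.tail_cons _ _⟩
    have hcont : Continuous fun t : ℝ => (Fin.cons t y : Fin (n + 1) → ℝ) :=
      continuous_pi fun i => Fin.cases continuous_id (fun j => continuous_const) i
    have hcl : IsClosed (fib K y) := hK.isClosed.preimage hcont
    obtain ⟨M, hM⟩ := (hK.image (continuous_apply (0 : Fin (n + 1)))).isBounded.subset_closedBall 0
    have hcp : IsCompact (fib K y) :=
      Metric.isCompact_of_isClosed_isBounded hcl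
        (Metric.isBounded_closedBall.subset fun t ht => hM ⟨_, ht, by simp⟩)
    have hcv : Convex ℝ (fib K y) := by
      intro a ha b hb p r hp hr hpr
      have h := hc ha hb hp hr hpr
      have e : p • (Fin.cons a y : Fin (n + 1) → ℝ) + r • Fin.cons b y
          = Fin.cons (p • a + r • b) y := by
        funext i
        refine Fin.cases ?_ (fun j => ?_) i
        · simp
        · simp [← add_mul, hpr]
      simpa [fib, e] using h
    rw [eq_Icc_of_connected_compact (hcv.isConnected hne) hcp]
    have hle : sInf (fib K y) ≤ sSup (fib K y) :=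
      csInf_le_csSup hne hcp.bddBelow hcp.bddAbove
    rw [Icc_add_Icc hle (by norm_num), Real.volume_Icc, Real.volume_Icc, indicator_of_mem hy,
      Pi.one_apply, mul_one, show (2 : ENNReal) = ENNReal.ofReal 2 by simp,
      ← ENNReal.ofReal_add (sub_nonneg.2 hle) (by norm_num)]
    congr 1
    ring

/-- The cross product in the plane. -/
def cr (w x : Fin 2 → ℝ) : ℝ := w 0 * x 1 - w 1 * x 0

/-- In the plane a segment adds at least its length times the breadth across it. -/
theorem planar_add_sg {S : Set (Fin 2 → ℝ)} (hS : IsCompact S) (hc : Convex ℝ S) (w : Fin 2 → ℝ)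
    {a b : Fin 2 → ℝ} (ha : a ∈ S) (hb : b ∈ S) :
    volume S + ENNReal.ofReal (2 * (cr w a - cr w b)) ≤ volume (S + sg w) := by
  have hsub : S ⊆ S + sg w := fun x hx =>
    ⟨x, hx, 0, ⟨0, by norm_num, zero_smul ℝ w⟩, add_zero x⟩
  rcases le_or_gt (cr w a - cr w b) 0 with h | h
  · rw [ENNReal.ofReal_of_nonpos (by linarith), add_zero]
    exact measure_mono hsub
  set Q := w 0 ^ 2 + w 1 ^ 2 with hQd
  have hQ : Q ≠ 0 := by
    intro hQ
    have h0 : w 0 = 0 := by nlinarith [sq_nonneg (w 1), sq_nonneg (w 0)]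
    have h1 : w 1 = 0 := by nlinarith [sq_nonneg (w 1), sq_nonneg (w 0)]
    simp [cr, h0, h1] at h
  set N : (Fin 2 → ℝ) →ₗ[ℝ] (Fin 2 → ℝ) :=
    Matrix.toLin' !![w 0 / Q, w 1 / Q; -w 1, w 0] with hN
  have hdet : LinearMap.det N = 1 := by
    rw [hN, LinearMap.det_toLin', Matrix.det_fin_two_of]
    field_simp
    rw [hQd]
    ring
  have hNw : N w = Pi.single 0 1 := by
    ext i
    fin_cases i <;> simp [hN, dotProduct, Fin.sum_univ_two]
    · field_simp
      rw [hQd]
    · ring
  have hN1 : ∀ x, Fin.tail (N x) = fun _ => cr w x := by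
    intro x
    ext i
    fin_cases i
    simp [hN, Fin.tail, cr, dotProduct, Fin.sum_univ_two]
    ring
  have hvol : ∀ T : Set (Fin 2 → ℝ), volume (N '' T) = volume T := by
    intro T
    rw [Measure.addHaar_image_linearMap, hdet]
    simp
  have himg : N '' (S + sg w) = N '' S + sg (Pi.single 0 1) := by
    rw [Set.image_add N, sg, sg, Set.image_image]
    congr 1
    exact image_congr fun t _ => by rw [map_smul, hNw]
  rw [← hvol (S + sg w), himg,
    volume_add_sg (hS.image N.continuous_of_finiteDimensional) (hc.linear_image N), hvol,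
    show ENNReal.ofReal (2 * (cr w a - cr w b)) = 2 * ENNReal.ofReal (cr w a - cr w b) by
      rw [ENNReal.ofReal_mul (by norm_num)]; simp]
  gcongr
  have hsub1 : (Icc (fun _ : Fin 1 => cr w b) fun _ => cr w a) ⊆ Fin.tail '' (N '' S) := by
    intro y hy
    have h0 : cr w b ≤ y 0 ∧ y 0 ≤ cr w a := ⟨hy.1 0, hy.2 0⟩
    set r := (y 0 - cr w b) / (cr w a - cr w b) with hr
    refine ⟨_, ⟨r • a + (1 - r) • b, hc ha hb (div_nonneg (by linarith) h.le)
      (sub_nonneg.2 ((div_le_one h).2 (by linarith))) (by ring), rfl⟩, ?_⟩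
    rw [hN1]
    funext i
    rw [Subsingleton.elim i 0]
    have : r * (cr w a - cr w b) = y 0 - cr w b := div_mul_cancel₀ _ h.ne'
    simp only [cr, Pi.add_apply, Pi.smul_apply, smul_eq_mul] at this ⊢
    linear_combination this
  refine le_trans (le_of_eq ?_) (measure_mono hsub1)
  simp [Real.volume_Icc_pi]

/-- The Brunn-Minkowski inequality in the plane, in square root form. -/
theorem sqrt_add_le {A B G : Set (Fin 2 → ℝ)} (hA : IsCompact A) (hB : IsCompact B)
    (hAc : Convex ℝ A) (hBc : Convex ℝ B) (h0A : (0 : Fin 2 → ℝ) ∈ A)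
    (h0B : (0 : Fin 2 → ℝ) ∈ B) (hG : IsCompact G) (h : A + B ⊆ G) :
    Real.sqrt (volume.real A) + Real.sqrt (volume.real B) ≤ Real.sqrt (volume.real G) := by
  have hA' : A ⊆ G := fun x hx => h ⟨x, hx, 0, h0B, add_zero x⟩
  have hB' : B ⊆ G := fun x hx => h ⟨0, h0A, x, hx, zero_add x⟩
  rcases eq_or_lt_of_le (Real.sqrt_nonneg (volume.real A)) with ha | ha
  · rw [← ha, zero_add]
    exact Real.sqrt_le_sqrt (measureReal_mono hB' hG.measure_lt_top.ne)
  rcases eq_or_lt_of_le (Real.sqrt_nonneg (volume.real B)) with hb | hb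
  · rw [← hb, add_zero]
    exact Real.sqrt_le_sqrt (measureReal_mono hA' hG.measure_lt_top.ne)
  have key := Vale.P254.brunn_minkowski hA hB hAc hBc h0A h0B hG ha hb zero_le_one zero_le_one
    (by norm_num) (Real.sq_sqrt measureReal_nonneg).le (Real.sq_sqrt measureReal_nonneg).le
    (fun x hx y hy => by simpa using h (add_mem_add hx hy))
  rw [one_mul, one_mul] at key
  exact (Real.le_sqrt (by positivity) measureReal_nonneg).2 key

/-- The difference body. -/
def dif (S : Set (Fin 2 → ℝ)) : Set (Fin 2 → ℝ) := S + -S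

/-- Twice the square root of the area is at most that of the difference body. -/
theorem two_sqrt_le_dif {S : Set (Fin 2 → ℝ)} (hS : IsCompact S) (hc : Convex ℝ S) :
    2 * Real.sqrt (volume.real S) ≤ Real.sqrt (volume.real (dif S)) := by
  rcases S.eq_empty_or_nonempty with rfl | ⟨p, hp⟩
  · simp
  have h := sqrt_add_le (A := (-p) +ᵥ S) (B := -((-p) +ᵥ S)) (G := dif S)
    (hS.vadd _) (hS.vadd _).neg (hc.vadd _) (hc.vadd _).neg ⟨p, hp, neg_add_cancel p⟩
    (Set.mem_neg.2 (by rw [neg_zero]; exact ⟨p, hp, neg_add_cancel p⟩))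
    (hS.add hS.neg) ?_
  · have e1 : volume.real ((-p) +ᵥ S) = volume.real S := by simp [Measure.real]
    have e2 : volume.real (-((-p) +ᵥ S)) = volume.real S := by simp [Measure.real]
    rw [e1, e2] at h
    linarith
  · rintro _ ⟨_, ⟨x, hx, rfl⟩, z, hz, rfl⟩
    obtain ⟨y, hy, hyz⟩ := Set.mem_neg.1 hz
    refine ⟨x, hx, -y, Set.neg_mem_neg.2 hy, ?_⟩
    simp only [vadd_eq_add] at hyz ⊢
    rw [show z = -(-p + y) by rw [hyz, neg_neg]]
    abel

/-- The sum of the first `j` difference bodies at the grid points. -/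
def dsum (D : ℕ → Set (Fin 2 → ℝ)) : ℕ → Set (Fin 2 → ℝ)
  | 0 => {0}
  | j + 1 => dsum D j + D j

theorem dsum_prop {D : ℕ → Set (Fin 2 → ℝ)} (n : ℕ) (hD : ∀ i < n, IsCompact (D i))
    (hc : ∀ i < n, Convex ℝ (D i)) (h0 : ∀ i < n, (0 : Fin 2 → ℝ) ∈ D i) :
    IsCompact (dsum D n) ∧ Convex ℝ (dsum D n) ∧ (0 : Fin 2 → ℝ) ∈ dsum D n ∧
      ∑ i ∈ Finset.range n, Real.sqrt (volume.real (D i)) ≤
        Real.sqrt (volume.real (dsum D n)) := by
  induction n with
  | zero => simp [dsum, convex_singleton]
  | succ n ih =>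
    obtain ⟨hk, hv, hz, hs⟩ := ih (fun i hi => hD i (by omega)) (fun i hi => hc i (by omega))
      (fun i hi => h0 i (by omega))
    have h1 := hD n (by omega)
    have h2 := h0 n (by omega)
    refine ⟨hk.add h1, hv.add (hc n (by omega)), ⟨0, hz, 0, h2, add_zero 0⟩, ?_⟩
    rw [Finset.sum_range_succ]
    have := sqrt_add_le hk h1 hv (hc n (by omega)) hz h2 (hk.add h1) subset_rfl
    simp only [dsum]
    linarith

theorem exists_cell {D : ℝ} (n : ℕ) {x : ℝ} (h0 : 0 ≤ x) (h1 : x ≤ n * D) :
    n = 0 ∨ ∃ i < n, (i : ℝ) * D ≤ x ∧ x ≤ ((i + 1 : ℕ) : ℝ) * D := by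
  induction n with
  | zero => exact Or.inl rfl
  | succ n ih =>
    right
    rcases le_or_gt ((n : ℝ) * D) x with h | h
    · exact ⟨n, n.lt_succ_self, h, h1⟩
    · rcases ih h.le with rfl | ⟨i, hi, hi'⟩
      · simp at h
        linarith
      · exact ⟨i, by omega, hi'⟩

/-- The two intervals of absolute values in `[a, b]` have total length at most `2 (b - a)`. -/
theorem volume_abs_le {a b : ℝ} (hab : a ≤ b) :
    volume {t : ℝ | |t| ∈ Icc a b} ≤ ENNReal.ofReal (2 * (b - a)) := by
  calc volume {t : ℝ | |t| ∈ Icc a b} ≤ volume (Icc a b ∪ Icc (-b) (-a)) := by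
        refine measure_mono fun t ht => ?_
        rcases abs_cases t with ⟨he, -⟩ | ⟨he, -⟩ <;> simp only [Set.mem_ofPred_eq, he] at ht
        · exact Or.inl ht
        · exact Or.inr ⟨by linarith [ht.2], by linarith [ht.1]⟩
    _ ≤ volume (Icc a b) + volume (Icc (-b) (-a)) := measure_union_le _ _
    _ = _ := by
        rw [Real.volume_Icc, Real.volume_Icc, ← ENNReal.ofReal_add (by linarith) (by linarith)]
        congr 1
        ring

/-- The two intervals of absolute values in `(a, b]` have total length `2 (b - a)`. -/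
theorem volume_abs_eq {a b : ℝ} (ha : 0 ≤ a) (hab : a ≤ b) :
    volume {t : ℝ | |t| ∈ Ioc a b} = ENNReal.ofReal (2 * (b - a)) := by
  have e : {t : ℝ | |t| ∈ Ioc a b} = Ioc a b ∪ Ico (-b) (-a) := by
    ext t
    simp only [Set.mem_ofPred_eq, mem_union, mem_Ioc, mem_Ico]
    rcases abs_cases t with ⟨he, _⟩ | ⟨he, _⟩ <;> rw [he]
    · exact ⟨Or.inl, fun h => h.elim id fun h' => by constructor <;> linarith [h'.1, h'.2]⟩
    · exact ⟨fun h => Or.inr ⟨by linarith [h.2], by linarith [h.1]⟩,
        fun h => h.elim (fun h' => by constructor <;> linarith [h'.1, h'.2])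
          fun h' => ⟨by linarith [h'.2], by linarith [h'.1]⟩⟩
  rw [e, measure_union ?_ measurableSet_Ico, Real.volume_Ioc, Real.volume_Ico,
    ← ENNReal.ofReal_add (by linarith) (by linarith)]
  · congr 1
    ring
  · exact Set.disjoint_left.2 fun t h h' => by linarith [h.1, h'.2]

end SliceAux

open SliceAux

/-- Slices and planar Brunn-Minkowski: the projection of the projection body along `e0`. -/
theorem four_sliceG_le {ι : Type} [Fintype ι] (s : ι → V3) (h : 0 < volume.real (zon s)) :
    4 * sliceG (zon s) ^ 2 ≤ supp (piGen (piGen s)) e0 := by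
  have _hpos := h
  set Z := zon s with hZdef
  have hZ : IsCompact Z := zon_compact s
  have hZc : Convex ℝ Z := zon_convex s
  have hcons : ∀ t, Continuous fun y : Fin 2 → ℝ => (Fin.cons t y : V3) := fun t =>
    continuous_pi fun i => Fin.cases continuous_const (fun j => continuous_apply j) i
  have hS : ∀ t, IsCompact (sl Z t) := by
    intro t
    have htail : IsCompact (Fin.tail '' Z) :=
      hZ.image (continuous_pi fun i => continuous_apply i.succ)
    exact htail.of_isClosed_subset (hZ.isClosed.preimage (hcons t))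
      fun y hy => ⟨_, hy, Fin.tail_cons _ _⟩
  have hSc : ∀ t, Convex ℝ (sl Z t) := by
    intro t a ha b hb p r hp hr hpr
    have h := hZc ha hb hp hr hpr
    have e : p • (Fin.cons t a : V3) + r • Fin.cons t b = Fin.cons t (p • a + r • b) := by
      funext i
      refine Fin.cases ?_ (fun j => ?_) i
      · simp [← add_mul, hpr]
      · simp
    simpa [sl, e] using h
  set c := supp s e0 with hcdef
  have hc0 : 0 ≤ c := supp_nonneg s e0
  have he0 : ∀ x : V3, e0 ⬝ᵥ x = x 0 := fun x => by simp [e0]
  have hout : ∀ t, c < |t| → sl Z t = ∅ := by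
    intro t ht
    refine eq_empty_of_forall_notMem fun y hy => ?_
    have h1 := dot_le_supp s e0 hy
    have h2 := dot_le_supp s e0 (zon_neg_mem s hy)
    rw [he0] at h1 h2
    simp only [Pi.neg_apply, Fin.cons_zero] at h1 h2
    have : |t| ≤ c := abs_le.2 ⟨by linarith, h1⟩
    linarith
  obtain ⟨zc, hzc, hzc0⟩ := exists_dot_eq_supp s e0
  rw [he0, ← hcdef] at hzc0
  have hne : ∀ t, |t| ≤ c → (sl Z t).Nonempty := by
    intro t ht
    have ht' := abs_le.1 ht
    rcases hc0.eq_or_lt with hc | hc
    · have : t = zc 0 := by linarith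
      exact ⟨Fin.tail zc, by simp [sl, this, show zc ∈ Z from hzc]⟩
    · have hm := hZc hzc (zon_neg_mem s hzc) (a := (1 + t / c) / 2) (b := (1 - t / c) / 2)
        (by have := (le_div_iff₀ hc).2 (show (-1 : ℝ) * c ≤ t by linarith); linarith)
        (by have := (div_le_one hc).2 ht'.2; linarith) (by ring)
      refine ⟨Fin.tail (((1 + t / c) / 2) • zc + ((1 - t / c) / 2) • -zc), ?_⟩
      have h0 : (((1 + t / c) / 2) • zc + ((1 - t / c) / 2) • -zc : V3) 0 = t := by
        simp only [Pi.add_apply, Pi.smul_apply, Pi.neg_apply, smul_eq_mul, hzc0]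
        field_simp
        ring
      have e := Fin.cons_self_tail (((1 + t / c) / 2) • zc + ((1 - t / c) / 2) • -zc)
      rw [h0] at e
      change (Fin.cons t _ : V3) ∈ Z
      rw [e]
      exact hm
  set Df : ℝ → Set (Fin 2 → ℝ) := fun t => dif (sl Z t) with hDf
  have hmono : ∀ t t', |t| ≤ t' → Df t' ⊆ Df t := by
    intro t t' htt'
    have ht := abs_le.1 htt'
    rcases (show (0 : ℝ) ≤ t' from le_trans (abs_nonneg t) htt').eq_or_lt with h0 | hpos
    · rw [show t = t' by linarith]
    rintro d ⟨a, ha, mb, hmb, rfl⟩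
    obtain ⟨b, hb, rfl⟩ : ∃ b, b ∈ sl Z t' ∧ mb = -b := ⟨-mb, hmb, (neg_neg mb).symm⟩
    set θ := (1 + t / t') / 2 with hθ
    have hθ0 : 0 ≤ θ := by
      have := (le_div_iff₀ hpos).2 (show (-1 : ℝ) * t' ≤ t by linarith)
      linarith
    have hθ1 : θ ≤ 1 := by
      have := (div_le_one hpos).2 ht.2
      linarith
    have key : ∀ p q, p ∈ sl Z t' → q ∈ sl Z t' → θ • p - (1 - θ) • q ∈ sl Z t := by
      intro p q hp hq
      have hm := hZc hp (zon_neg_mem s hq) (a := θ) (b := 1 - θ) hθ0 (by linarith) (by ring)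
      have e : θ • (Fin.cons t' p : V3) + (1 - θ) • -Fin.cons t' q
          = Fin.cons t (θ • p - (1 - θ) • q) := by
        funext i
        refine Fin.cases ?_ (fun j => ?_) i
        · simp only [Pi.add_apply, Pi.smul_apply, Pi.neg_apply, Fin.cons_zero, smul_eq_mul, hθ]
          field_simp
          ring
        · simp [sub_eq_add_neg]
      rw [e] at hm
      exact hm
    refine ⟨_, key a b ha hb, _, Set.neg_mem_neg.2 (key b a hb ha), ?_⟩
    simp only [neg_sub]
    module
  have hDk : ∀ t, IsCompact (Df t) := fun t => (hS t).add (hS t).neg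
  set F : ℝ → ℝ := fun t => Real.sqrt (volume.real (Df t)) / 2 with hF
  have hsqrt : ∀ t, Real.sqrt (slArea Z t) ≤ F t := fun t => by
    have := two_sqrt_le_dif (hS t) (hSc t)
    simp only [hF, hDf]
    change Real.sqrt (volume.real (sl Z t)) ≤ _
    linarith
  -- the planar projection of the projection body
  set L := Fin.tail '' zon (piGen s) with hLdef
  have htail : Continuous (Fin.tail : V3 → Fin 2 → ℝ) :=
    continuous_pi fun i => continuous_apply i.succ
  have hLc : IsCompact L := (zon_compact _).image htail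
  have hLv : Convex ℝ L := (zon_convex (piGen s)).is_linear_image ⟨fun _ _ => rfl, fun _ _ => rfl⟩
  have hRHS : supp (piGen (piGen s)) e0 = volume.real L := by
    rw [← pA_zon, pA]
    have hv : volume (zon (piGen s) + seg e0) = volume (zon (piGen s)) + 2 * volume L :=
      volume_add_sg (zon_compact _) (zon_convex _)
    rw [Measure.real, hv, ENNReal.toReal_add (zon_compact _).measure_lt_top.ne
      (ENNReal.mul_ne_top (by norm_num) hLc.measure_lt_top.ne), ENNReal.toReal_mul]
    simp [Measure.real]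
  rw [hRHS]
  set G := sliceG Z with hG
  have hG0 : 0 ≤ G := integral_nonneg fun t => Real.sqrt_nonneg _
  suffices hmain : ∀ n : ℕ, 1 ≤ n → 2 * G ≤ Real.sqrt (volume.real L) + 4 * (c / n) * F 0 by
    have hlim : Tendsto (fun n : ℕ => Real.sqrt (volume.real L) + 4 * (c / n) * F 0) atTop
        (𝓝 (Real.sqrt (volume.real L))) := by
      simpa using ((tendsto_const_div_atTop_nhds_zero_nat c).const_mul 4 |>.mul_const (F 0)
        |>.const_add (Real.sqrt (volume.real L)))
    have h2 : 2 * G ≤ Real.sqrt (volume.real L) :=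
      ge_of_tendsto hlim (eventually_atTop.2 ⟨1, hmain⟩)
    have h3 := (Real.le_sqrt (by linarith) measureReal_nonneg).1 h2
    linarith
  intro n hn
  set Δ := c / n with hΔ
  have hn0 : (0 : ℝ) < n := by exact_mod_cast hn
  have hΔ0 : 0 ≤ Δ := by positivity
  have hnΔ : (n : ℝ) * Δ = c := by rw [hΔ]; field_simp
  set T : ℕ → ℝ := fun i => (i : ℝ) * Δ with hT
  have hT0 : ∀ i, 0 ≤ T i := fun i => by positivity
  have hTs : ∀ i, T (i + 1) - T i = Δ := fun i => by simp only [hT]; push_cast; ring
  have hTc : ∀ i, i ≤ n → T i ≤ c := fun i hi => by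
    rw [← hnΔ]
    exact mul_le_mul_of_nonneg_right (by exact_mod_cast hi) hΔ0
  -- upper bound for `G`
  have hGle : G ≤ ∑ i ∈ Finset.range n, F (T i) * (2 * Δ) := by
    have hmeas : ∀ i, MeasurableSet {t : ℝ | |t| ∈ Icc (T i) (T (i + 1))} := fun i =>
      measurableSet_Icc.preimage continuous_abs.measurable
    have hfin : ∀ i, volume {t : ℝ | |t| ∈ Icc (T i) (T (i + 1))} ≤ ENNReal.ofReal (2 * Δ) :=
      fun i => (volume_abs_le (by linarith [hTs i])).trans_eq (by rw [hTs i])
    set g : ℝ → ℝ := fun t => ∑ i ∈ Finset.range n,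
      {t : ℝ | |t| ∈ Icc (T i) (T (i + 1))}.indicator (fun _ => F (T i)) t with hg
    have hF0 : ∀ t, 0 ≤ F t := fun t => by positivity
    have hint : ∀ i, Integrable
        ({t : ℝ | |t| ∈ Icc (T i) (T (i + 1))}.indicator fun _ => F (T i)) := fun i =>
      (integrable_indicator_iff (hmeas i)).2
        (integrableOn_const (ne_top_of_le_ne_top ENNReal.ofReal_ne_top (hfin i)))
    have hgi : Integrable g := integrable_finsetSum _ fun i _ => hint i
    have hle : ∀ t, Real.sqrt (slArea Z t) ≤ g t := by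
      intro t
      have hnn : ∀ i ∈ Finset.range n,
          0 ≤ {t : ℝ | |t| ∈ Icc (T i) (T (i + 1))}.indicator (fun _ => F (T i)) t :=
        fun i _ => indicator_nonneg (fun _ _ => hF0 _) t
      rcases le_or_gt |t| c with ht | ht
      · rcases exists_cell (D := Δ) n (abs_nonneg t) (hnΔ.symm ▸ ht) with h0 | ⟨i, hi, h1, h2⟩
        · omega
        refine le_trans ?_ (Finset.single_le_sum hnn (Finset.mem_range.2 hi))
        rw [indicator_of_mem (show t ∈ {t : ℝ | |t| ∈ Icc (T i) (T (i + 1))} from ⟨h1, h2⟩)]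
        refine (hsqrt t).trans ?_
        have hsub : Df t ⊆ Df (T i) := hmono (T i) |t| (by rwa [abs_of_nonneg (hT0 i)])
          |>.trans' ?_
        · simp only [hF]
          gcongr
          exact (hDk _).measure_lt_top.ne
        · intro d hd
          rcases abs_cases t with ⟨he, _⟩ | ⟨he, _⟩ <;> rw [he]
          · exact hd
          · obtain ⟨a, ha, b, hb, rfl⟩ := hd
            have hneg : ∀ p, p ∈ sl Z t → -p ∈ sl Z (-t) := fun p hp => by
              have e : -(Fin.cons t p : V3) = Fin.cons (-t) (-p) := by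
                funext i
                refine Fin.cases ?_ (fun j => ?_) i <;> simp
              simpa [sl, e] using zon_neg_mem s hp
            refine ⟨b, ?_, a, ?_, add_comm b a⟩
            · simpa using hneg _ (Set.mem_neg.1 hb)
            · exact Set.mem_neg.2 (hneg a ha)
      · rw [show slArea Z t = 0 by
          change volume.real (sl Z t) = 0
          simp [hout t ht], Real.sqrt_zero]
        exact Finset.sum_nonneg hnn
    calc G ≤ ∫ t, g t := integral_mono_of_nonneg
          (Eventually.of_forall fun t => Real.sqrt_nonneg _) hgi (Eventually.of_forall hle)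
      _ = ∑ i ∈ Finset.range n, volume.real {t : ℝ | |t| ∈ Icc (T i) (T (i + 1))} * F (T i) := by
          rw [integral_finsetSum _ fun i _ => hint i]
          exact Finset.sum_congr rfl fun i _ => by
            rw [integral_indicator_const _ (hmeas i), smul_eq_mul]
      _ ≤ _ := Finset.sum_le_sum fun i _ => by
          rw [mul_comm]
          refine mul_le_mul_of_nonneg_left ?_ (hF0 _)
          exact ENNReal.toReal_le_of_le_ofReal (by positivity) (hfin i)
  -- lower bound for the area of `L`
  set D : ℕ → Set (Fin 2 → ℝ) := fun i => Df (T (i + 1)) with hD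
  have hin : ∀ i < n, |T (i + 1)| ≤ c := fun i hi => by
    rw [abs_of_nonneg (hT0 _)]; exact hTc _ hi
  obtain ⟨hEk, -, -, hEs⟩ := dsum_prop (D := D) n (fun i _ => hDk _)
    (fun i _ => (hSc _).add (hSc _).neg) (fun i hi => by
      obtain ⟨a, ha⟩ := hne _ (hin i hi)
      exact ⟨a, ha, -a, Set.neg_mem_neg.2 ha, add_neg_cancel a⟩)
  set J : (Fin 2 → ℝ) →ₗ[ℝ] (Fin 2 → ℝ) := Matrix.toLin' !![0, 1; -1, 0] with hJ
  have hJdot : ∀ w d : Fin 2 → ℝ, w ⬝ᵥ J d = cr w d := by
    intro w d
    simp [hJ, cr, dotProduct, Fin.sum_univ_two]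
    ring
  have hmemE : ∀ (m : ℕ), ∀ d ∈ dsum D m, ∃ a b : ℕ → Fin 2 → ℝ,
      (∀ i < m, a i ∈ sl Z (T (i + 1)) ∧ b i ∈ sl Z (T (i + 1))) ∧
        d = ∑ i ∈ Finset.range m, (a i - b i) := by
    intro m
    induction m with
    | zero => intro d hd; exact ⟨0, 0, by simp, by simpa [dsum] using hd⟩
    | succ m ih =>
      rintro _ ⟨d, hd, e, ⟨p, hp, q, hq, rfl⟩, rfl⟩
      obtain ⟨a, b, hab, rfl⟩ := ih d hd
      refine ⟨Function.update a m p, Function.update b m (-q), fun i hi => ?_, ?_⟩
      · rcases Nat.lt_succ_iff_lt_or_eq.1 hi with hi' | rfl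
        · simpa [Function.update_of_ne hi'.ne] using hab i hi'
        · simpa using ⟨hp, Set.mem_neg.1 hq⟩
      · rw [Finset.sum_range_succ]
        simp only [Function.update_self, sub_neg_eq_add]
        congr 1
        exact Finset.sum_congr rfl fun i hi => by
          have := (Finset.mem_range.1 hi).ne
          simp [Function.update_of_ne this]
  have hbreadth : ∀ (w : Fin 2 → ℝ) (a b : ℕ → Fin 2 → ℝ),
      (∀ i < n, a i ∈ sl Z (T (i + 1)) ∧ b i ∈ sl Z (T (i + 1))) →
      2 * Δ * cr w (∑ i ∈ Finset.range n, (a i - b i)) ≤ supp (piGen s) (Fin.cons 0 w) := by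
    intro w a b hab
    set u : V3 := Fin.cons 0 w with hu
    set δ : ℕ → ℝ := fun i => max (cr w (a i) - cr w (b i)) 0 with hδ
    set B : ℕ → Set ℝ := fun i => {t : ℝ | |t| ∈ Ioc (T i) (T (i + 1))} with hB
    have hBm : ∀ i, MeasurableSet (B i) := fun i =>
      measurableSet_Ioc.preimage continuous_abs.measurable
    have hpt : ∀ t, volume (sl Z t) +
        ∑ i ∈ Finset.range n, (B i).indicator (fun _ => ENNReal.ofReal (2 * δ i)) t ≤
        volume (sl (Z + seg u) t) := by
      intro t
      have hsub : sl Z t + sg w ⊆ sl (Z + seg u) t := by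
        rintro _ ⟨y, hy, _, ⟨r, hr, rfl⟩, rfl⟩
        refine ⟨_, hy, _, ⟨r, hr, rfl⟩, ?_⟩
        funext i
        refine Fin.cases ?_ (fun j => ?_) i <;> simp [hu]
      refine le_trans ?_ (measure_mono hsub)
      by_cases hex : ∃ i ∈ Finset.range n, t ∈ B i
      · obtain ⟨i, hi, hti⟩ := hex
        rw [Finset.sum_eq_single_of_mem i hi, indicator_of_mem hti]
        · obtain ⟨p, hp, mq, hmq, hpq⟩ := hmono t (T (i + 1)) hti.2
            (show a i - b i ∈ Df (T (i + 1)) from ⟨a i, (hab i (Finset.mem_range.1 hi)).1, -b i,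
              Set.neg_mem_neg.2 (hab i (Finset.mem_range.1 hi)).2, (sub_eq_add_neg _ _).symm⟩)
          have hcr : cr w p - cr w (-mq) = cr w (a i) - cr w (b i) := by
            have e0 := congrFun hpq 0
            have e1 := congrFun hpq 1
            simp only [Pi.add_apply, Pi.sub_apply] at e0 e1
            simp only [cr, Pi.neg_apply]
            linear_combination (w 0) * e1 - (w 1) * e0
          rcases le_or_gt (cr w (a i) - cr w (b i)) 0 with hle | hlt
          · simp only [hδ, max_eq_right hle, mul_zero, ENNReal.ofReal_zero, add_zero]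
            exact measure_mono fun x hx => ⟨x, hx, 0, ⟨0, by norm_num, zero_smul ℝ w⟩, add_zero x⟩
          · simp only [hδ, max_eq_left hlt.le, ← hcr]
            exact planar_add_sg (hS t) (hSc t) w hp (Set.mem_neg.1 hmq)
        · intro j _ hji
          refine indicator_of_notMem (fun htj => hji ?_) _
          by_contra hne'
          rcases Nat.lt_or_gt_of_ne hne' with hlt | hlt
          · have : T (j + 1) ≤ T i := mul_le_mul_of_nonneg_right (by exact_mod_cast hlt) hΔ0
            linarith [hti.1, htj.2]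
          · have : T (i + 1) ≤ T j := mul_le_mul_of_nonneg_right (by exact_mod_cast hlt) hΔ0
            linarith [htj.1, hti.2]
      · push Not at hex
        rw [Finset.sum_eq_zero fun i hi => indicator_of_notMem (hex i hi) _, add_zero]
        exact measure_mono fun x hx => ⟨x, hx, 0, ⟨0, by norm_num, zero_smul ℝ w⟩, add_zero x⟩
    have hseg : IsCompact (Z + seg u) := hZ.add (isCompact_sg u)
    have hgm : Measurable fun t => ∑ i ∈ Finset.range n,
        (B i).indicator (fun _ => ENNReal.ofReal (2 * δ i)) t :=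
      Finset.measurable_fun_sum _ fun i _ => measurable_const.indicator (hBm i)
    have hvol : volume Z + ENNReal.ofReal (∑ i ∈ Finset.range n, 2 * δ i * (2 * Δ)) ≤
        volume (Z + seg u) := by
      have e1 : ENNReal.ofReal (∑ i ∈ Finset.range n, 2 * δ i * (2 * Δ)) =
          ∫⁻ t, ∑ i ∈ Finset.range n, (B i).indicator (fun _ => ENNReal.ofReal (2 * δ i)) t := by
        rw [lintegral_finsetSum _ fun i _ => measurable_const.indicator (hBm i),
          ENNReal.ofReal_sum_of_nonneg fun i _ => by positivity]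
        refine Finset.sum_congr rfl fun i _ => ?_
        rw [lintegral_indicator_const (hBm i),
          volume_abs_eq (hT0 i) (by linarith [hTs i]), hTs i,
          ENNReal.ofReal_mul (by positivity : (0 : ℝ) ≤ 2 * δ i)]
      rw [(volume_eq_lintegral hZ.measurableSet).1, e1, ← lintegral_add_right _ hgm,
        (volume_eq_lintegral hseg.measurableSet).1]
      exact lintegral_mono hpt
    have hreal := ENNReal.toReal_mono hseg.measure_lt_top.ne hvol
    rw [ENNReal.toReal_add hZ.measure_lt_top.ne ENNReal.ofReal_ne_top,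
      ENNReal.toReal_ofReal (Finset.sum_nonneg fun i _ => by positivity)] at hreal
    rw [← pA_zon, pA, Measure.real, Measure.real]
    have hsum : 2 * Δ * cr w (∑ i ∈ Finset.range n, (a i - b i)) ≤
        (∑ i ∈ Finset.range n, 2 * δ i * (2 * Δ)) / 2 := by
      have e : cr w (∑ i ∈ Finset.range n, (a i - b i)) =
          ∑ i ∈ Finset.range n, (cr w (a i) - cr w (b i)) := by
        simp only [cr, Finset.sum_apply, Pi.sub_apply, Finset.mul_sum, ← Finset.sum_sub_distrib]
        exact Finset.sum_congr rfl fun i _ => by ring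
      rw [e, Finset.mul_sum, Finset.sum_div]
      refine Finset.sum_le_sum fun i _ => ?_
      have := le_max_left (cr w (a i) - cr w (b i)) 0
      nlinarith
    linarith
  have hsub : (fun d => J ((2 * Δ) • d)) '' dsum D n ⊆ L := by
    rintro _ ⟨d, hd, rfl⟩
    by_contra hnot
    obtain ⟨φ, uu, hlt, hgt⟩ := geometric_hahn_banach_closed_point hLv hLc.isClosed hnot
    set w : Fin 2 → ℝ := fun i => φ (Pi.single i 1) with hw
    have hφ : ∀ y, φ y = w ⬝ᵥ y := fun y => by
      conv_lhs => rw [pi_eq_sum_univ' y]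
      rw [map_sum]
      simp [dotProduct, hw, mul_comm]
    obtain ⟨z, hz, hz'⟩ := exists_dot_eq_supp (piGen s) (Fin.cons 0 w)
    have h1 := hlt _ ⟨z, hz, rfl⟩
    rw [hφ] at h1 hgt
    rw [hJdot] at hgt
    have h2 : (Fin.cons 0 w : V3) ⬝ᵥ z = w ⬝ᵥ Fin.tail z := by
      simp [dotProduct, Fin.sum_univ_succ, Fin.tail]
    obtain ⟨a, b, hab, rfl⟩ := hmemE n d hd
    have h3 := hbreadth w a b hab
    have h4 : cr w ((2 * Δ) • ∑ i ∈ Finset.range n, (a i - b i)) =
        2 * Δ * cr w (∑ i ∈ Finset.range n, (a i - b i)) := by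
      simp only [cr, Pi.smul_apply, smul_eq_mul]
      ring
    linarith
  have hJvol : volume ((fun d => J ((2 * Δ) • d)) '' dsum D n) =
      ENNReal.ofReal ((2 * Δ) ^ 2) * volume (dsum D n) := by
    rw [show (fun d => J ((2 * Δ) • d)) = J ∘ fun d => (2 * Δ) • d from rfl, image_comp,
      Measure.addHaar_image_linearMap, image_smul, Measure.addHaar_smul_of_nonneg _ (by positivity)]
    simp [hJ, LinearMap.det_toLin', Matrix.det_fin_two_of]
  have harea : 2 * Δ * Real.sqrt (volume.real (dsum D n)) ≤ Real.sqrt (volume.real L) := by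
    have h1 := ENNReal.toReal_mono hLc.measure_lt_top.ne (measure_mono (μ := volume) hsub)
    rw [hJvol, ENNReal.toReal_mul, ENNReal.toReal_ofReal (by positivity)] at h1
    rw [← Real.sqrt_sq (show 0 ≤ 2 * Δ by positivity), ← Real.sqrt_mul (sq_nonneg _)]
    exact Real.sqrt_le_sqrt h1
  have hsumF : ∑ i ∈ Finset.range n, Real.sqrt (volume.real (D i)) =
      2 * ∑ i ∈ Finset.range n, F (T (i + 1)) := by
    rw [Finset.mul_sum]
    exact Finset.sum_congr rfl fun i _ => by simp only [hF, hD]; ring
  have hshift : ∑ i ∈ Finset.range n, F (T i) ≤ F 0 + ∑ i ∈ Finset.range n, F (T (i + 1)) := by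
    have h1 := Finset.sum_range_succ (fun i => F (T i)) n
    rw [Finset.sum_range_succ'] at h1
    have h2 : T 0 = 0 := by simp [hT]
    simp only [h2] at h1
    have : 0 ≤ F (T n) := by positivity
    linarith
  rw [← Finset.sum_mul] at hGle
  have h5 := mul_le_mul_of_nonneg_left hEs (show 0 ≤ 2 * Δ by positivity)
  rw [hsumF] at h5
  have h6 := mul_le_mul_of_nonneg_left hshift (show 0 ≤ 2 * Δ by positivity)
  linarith

end

end Vale.Agent.P237
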