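import Vale.Agent.P237.Defs
import Vale.Agent.P237.Zonoid.Gauge

open MeasureTheory Set Pointwise Filter Topology

namespace Vale.Agent.P237

noncomputable section

open Zonoid

theorem pA_zero {K : Set V3} : pA K 0 = 0 := by
  have : seg (0 : V3) = 0 := by
    ext x
    simp only [seg, smul_zero, mem_image, Set.mem_zero]
    exact ⟨fun ⟨_, _, h⟩ => h.symm, fun h => ⟨0, by norm_num, h.symm⟩⟩
  rw [pA, this, add_zero, sub_self, zero_div]

theorem pA_lower {K : Set V3} (hK : Body K) :
    ∃ c > 0, ∀ u, c * ‖u‖ ≤ pA K u := by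
  obtain ⟨R, hR⟩ := hK.2.1.isBounded.exists_norm_le
  have hR0 : 0 ≤ R := (norm_nonneg _).trans (hR 0 (interior_subset hK.2.2))
  have hV : 0 < volume.real K := ENNReal.toReal_pos
    (Measure.measure_pos_of_nonempty_interior volume ⟨0, hK.2.2⟩).ne' hK.2.1.measure_lt_top.ne
  refine ⟨volume.real K / (2 * R + 1), by positivity, fun u => ?_⟩
  rcases eq_or_ne u 0 with rfl | hu
  · simp [pA_zero]
  have hn : 0 < ‖u‖ := norm_pos_iff.2 hu
  set h := (2 * R + 1) / ‖u‖ with hh
  have hh0 : 0 < h := by positivity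
  have he : shiftI K u h = ∅ := eq_empty_of_forall_notMem fun x ⟨h1, h2⟩ => by
    have h3 : ‖h • u‖ ≤ ‖x + h • u‖ + ‖x‖ := by
      simpa using norm_sub_le (x + h • u) x
    rw [norm_smul, Real.norm_eq_abs, abs_of_pos hh0, hh, div_mul_cancel₀ _ hn.ne'] at h3
    linarith [hR _ h1, hR _ h2]
  have := (loss_bounds hK hu).1 h hh0.le
  rw [loss, he, measureReal_empty, sub_zero, hh, div_mul_eq_mul_div, le_div_iff₀ hn] at this
  rw [div_mul_eq_mul_div, div_le_iff₀ (by positivity)]
  linarith

/-- The gradient of the tent, as a vector. -/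
def grad (K : Set V3) (x : V3) : V3 := fun i => fderiv ℝ (tent K) x (Pi.single i 1)

theorem dot_grad (K : Set V3) (u x : V3) : u ⬝ᵥ grad K x = fderiv ℝ (tent K) x u := by
  conv_rhs => rw [pi_eq_sum_univ' u, map_sum]
  simp [dotProduct, grad, map_smul]

theorem approx_one {K : Set V3} (hK : Body K) {e : ℝ} (he : 0 < e) :
    ∃ (J : Type) (_ : Fintype J) (s : J → V3), ∀ u,
      |supp s u - pA K u| ≤ e * ‖u‖ := by
  obtain ⟨C, hC⟩ := exists_lipschitz hK
  set W := volume.real K with hW
  have hW0 : 0 ≤ W := measureReal_nonneg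
  set ε := e / (5 * (W + 1)) with hε
  have hε0 : 0 < ε := by positivity
  set N : ℤ := ⌈(C : ℝ) / ε⌉ + 1 with hN
  have hN0 : 0 ≤ N := by
    have : 0 ≤ ⌈(C : ℝ) / ε⌉ := Int.ceil_nonneg (by positivity)
    omega
  let rd : ℝ → Finset.Icc (-N) N := fun r =>
    if h : ⌊r / ε⌋ ∈ Finset.Icc (-N) N then ⟨_, h⟩ else ⟨0, by simp [hN0]⟩
  let idx : V3 → Fin 3 → Finset.Icc (-N) N := fun x i => rd (grad K x i)
  let pt : (Fin 3 → Finset.Icc (-N) N) → V3 := fun j i => ε * ((j i : ℤ) : ℝ)
  have hg : ∀ i, Measurable fun x => grad K x i := fun i =>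
    measurable_fderiv_apply_const ℝ (tent K) (Pi.single i 1)
  have hrd : Measurable rd := by
    have h1 : Measurable fun z : ℤ =>
        (if h : z ∈ Finset.Icc (-N) N then (⟨z, h⟩ : Finset.Icc (-N) N) else ⟨0, by simp [hN0]⟩) :=
      measurable_from_top
    exact h1.comp ((measurable_id.div_const ε).floor)
  have hidx : Measurable idx := measurable_pi_iff.2 fun i => hrd.comp (hg i)
  have happ : ∀ x i, |grad K x i - pt (idx x) i| ≤ ε := by
    intro x i
    have hb : |grad K x i| ≤ C := by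
      have := (fderiv ℝ (tent K) x).le_of_opNorm_le (norm_fderiv_le_of_lipschitz ℝ hC)
        (Pi.single i (1 : ℝ))
      simpa [grad, Pi.norm_single, Real.norm_eq_abs] using this
    have hm : ⌊grad K x i / ε⌋ ∈ Finset.Icc (-N) N := by
      have h1 : (C : ℝ) / ε ≤ ⌈(C : ℝ) / ε⌉ := Int.le_ceil _
      have h2 : |grad K x i / ε| ≤ C / ε := by
        rw [abs_div, abs_of_pos hε0]; gcongr
      rw [abs_le] at h2
      refine Finset.mem_Icc.2 ⟨Int.le_floor.2 ?_, ?_⟩
      · rw [hN]; push_cast; linarith [h2.1]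
      · rw [← Int.lt_add_one_iff, Int.floor_lt, hN]; push_cast; linarith [h2.2]
    have hpt : pt (idx x) i = ε * (⌊grad K x i / ε⌋ : ℝ) := by
      simp only [pt, idx, rd, dif_pos hm]
    rw [hpt]
    have h1 := Int.floor_le (grad K x i / ε)
    have h2 := Int.lt_floor_add_one (grad K x i / ε)
    rw [le_div_iff₀ hε0] at h1
    rw [div_lt_iff₀ hε0] at h2
    rw [abs_le]; constructor <;> linarith
  set μ := (volume.restrict K).map idx with hμ
  refine ⟨Fin 3 → Finset.Icc (-N) N, inferInstance,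
    fun j => (3 / 2 * μ.real {j}) • pt j, fun u => ?_⟩
  rcases eq_or_ne u 0 with rfl | hu
  · simp [supp, pA_zero]
  haveI : IsFiniteMeasure (volume.restrict K) :=
    ⟨by rw [Measure.restrict_apply_univ]; exact hK.2.1.measure_lt_top⟩
  have hsupp : supp (fun j => (3 / 2 * μ.real {j}) • pt j) u =
      3 / 2 * ∫ x in K, |u ⬝ᵥ pt (idx x)| := by
    have hF : Measurable fun j => |u ⬝ᵥ pt j| := measurable_of_finite _
    rw [← integral_map hidx.aemeasurable hF.aestronglyMeasurable, ← hμ,
      integral_fintype Integrable.of_finite, supp, Finset.mul_sum]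
    refine Finset.sum_congr rfl fun j _ => ?_
    rw [dotProduct_smul, smul_eq_mul, abs_mul, abs_of_nonneg (by positivity), smul_eq_mul]
    ring
  have hid : pA K u = 3 / 2 * ∫ x in K, |u ⬝ᵥ grad K x| := by
    have := pA_eq_integral hK hu
    simp only [dot_grad]
    linarith
  have hi1 : IntegrableOn (fun x => |u ⬝ᵥ pt (idx x)|) K := by
    have hF : Measurable fun j => |u ⬝ᵥ pt j| := measurable_of_finite _
    exact (Integrable.of_finite (μ := (volume.restrict K).map idx)
      (f := fun j => |u ⬝ᵥ pt j|)).comp_measurable hidx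
  have hpt : ∀ x, abs (|u ⬝ᵥ pt (idx x)| - |u ⬝ᵥ grad K x|) ≤ 3 * ε * ‖u‖ := by
    intro x
    refine (abs_abs_sub_abs_le_abs_sub _ _).trans ?_
    rw [← dotProduct_sub]
    refine (Finset.abs_sum_le_sum_abs _ _).trans ?_
    have : ∀ i, |u i * (pt (idx x) - grad K x) i| ≤ ‖u‖ * ε := fun i => by
      rw [abs_mul, Pi.sub_apply, abs_sub_comm]
      exact mul_le_mul (norm_le_pi_norm u i) (happ x i) (abs_nonneg _) (norm_nonneg _)
    refine (Finset.sum_le_sum fun i _ => this i).trans_eq ?_
    simp; ring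
  have hi2 : IntegrableOn (fun x => |u ⬝ᵥ grad K x|) K := by
    refine (hi1.add (integrableOn_const (C := 3 * ε * ‖u‖) hK.2.1.measure_lt_top.ne)).mono' ?_ ?_
    · simp only [dot_grad]
      exact (measurable_fderiv_apply_const ℝ (tent K) u).abs.aestronglyMeasurable
    · refine Eventually.of_forall fun x => ?_
      have := (abs_le.1 (hpt x)).1
      simp only [Real.norm_eq_abs, abs_abs, Pi.add_apply]
      linarith
  rw [hsupp, hid, ← mul_sub, ← integral_sub hi1 hi2, abs_mul, abs_of_nonneg (by norm_num : (0:ℝ) ≤ 3 / 2)]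
  have hb : abs (∫ x in K, (|u ⬝ᵥ pt (idx x)| - |u ⬝ᵥ grad K x|)) ≤ 3 * ε * ‖u‖ * W := by
    refine (Real.norm_eq_abs _).symm.trans_le (norm_setIntegral_le_of_norm_le_const
      hK.2.1.measure_lt_top fun x _ => (Real.norm_eq_abs _).trans_le (hpt x))
  refine (mul_le_mul_of_nonneg_left hb (by norm_num)).trans ?_
  have : ε * (5 * (W + 1)) = e := by rw [hε]; field_simp
  nlinarith [norm_nonneg u, mul_nonneg hε0.le (norm_nonneg u)]

/-- The projection body is a zonoid. -/
theorem exists_zonotope_approx {K : Set V3} (hK : Body K) {η : ℝ} (hη : 0 < η) :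
    ∃ (m : ℕ) (s : Fin m → V3), ∀ u,
      supp s u ≤ (1 + η) * pA K u ∧ pA K u ≤ (1 + η) * supp s u := by
  obtain ⟨c, hc, hlow⟩ := pA_lower hK
  set d := η / (1 + η) with hd
  obtain ⟨J, _, s, hs⟩ := approx_one hK (show 0 < d * c by positivity)
  refine ⟨Fintype.card J, fun i => s ((Fintype.equivFin J).symm i), fun u => ?_⟩
  have he : supp (fun i => s ((Fintype.equivFin J).symm i)) u = supp s u :=
    Equiv.sum_comp (Fintype.equivFin J).symm fun j => |u ⬝ᵥ s j|
  rw [he]
  have h1 : |supp s u - pA K u| ≤ d * pA K u :=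
    (hs u).trans (by rw [mul_assoc]; exact mul_le_mul_of_nonneg_left (hlow u) (by positivity))
  have hp : 0 ≤ pA K u := le_trans (by positivity) (hlow u)
  rw [abs_le] at h1
  have hd1 : d * (1 + η) = η := div_mul_cancel₀ _ (by positivity)
  constructor
  · nlinarith
  · nlinarith [mul_le_mul_of_nonneg_right h1.1 (show (0 : ℝ) ≤ 1 + η by linarith)]

/-- `pA` is the area of the orthogonal projection for unit vectors. -/
theorem pA_eq_proj {K : Set (EuclideanSpace ℝ (Fin 3))} (hc : Convex ℝ K) (hk : IsCompact K)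
    {u : EuclideanSpace ℝ (Fin 3)} (hu : ‖u‖ = 1) :
    pA (WithLp.ofLp '' K) (WithLp.ofLp u) =
      volume.real ((Submodule.orthogonalProjectionOnto (ℝ ∙ u)ᗮ) '' K) := by
  haveI : Fact (Module.finrank ℝ (EuclideanSpace ℝ (Fin 3)) = 2 + 1) := ⟨by simp⟩
  have hu0 : u ≠ 0 := by rintro rfl; simp at hu
  set P := Submodule.orthogonalProjectionOnto (ℝ ∙ u)ᗮ with hP
  set b := (OrthonormalBasis.fromOrthogonalSpanSingleton (𝕜 := ℝ) 2 hu0).repr with hb
  let F : EuclideanSpace ℝ (Fin 3) →ₗ[ℝ] EuclideanSpace ℝ (Fin 3) :=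
    { toFun := fun x => WithLp.toLp 2 (Fin.cons (inner ℝ u x) (WithLp.ofLp (b (P x))))
      map_add' := fun x y => by
        ext i
        refine Fin.cases ?_ (fun j => ?_) i <;> simp [inner_add_right]
      map_smul' := fun r x => by
        ext i
        refine Fin.cases ?_ (fun j => ?_) i <;> simp [real_inner_smul_right] }
  have hnorm : ∀ x, ‖F x‖ = ‖x‖ := by
    intro x
    rw [← sq_eq_sq₀ (norm_nonneg _) (norm_nonneg _), EuclideanSpace.real_norm_sq_eq,
      Fin.sum_univ_succ]
    have h1 : ∑ j : Fin 2, (F x).ofLp j.succ ^ 2 = ‖P x‖ ^ 2 := by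
      rw [← b.norm_map, EuclideanSpace.real_norm_sq_eq]
      simp [F]
    rw [h1, (ℝ ∙ u).norm_sq_eq_add_norm_sq_projection x]
    have h2 : ‖(ℝ ∙ u).orthogonalProjectionOnto x‖ = |inner ℝ u x| := by
      show ‖(ℝ ∙ u).starProjection x‖ = _
      rw [Submodule.starProjection_singleton, norm_smul, hu]
      simp
    rw [h2, sq_abs]
    simp [F, hP]
  let Ψ := (LinearIsometry.mk F hnorm).toLinearIsometryEquiv rfl
  let w := WithLp.linearEquiv 2 ℝ (Fin 3 → ℝ)
  let T : V3 ≃ₗ[ℝ] V3 := (w.symm.trans Ψ.toLinearEquiv).trans w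
  have hΨ : ∀ x, Ψ x = F x := fun x => rfl
  have hT : ∀ x, T (WithLp.ofLp x) = WithLp.ofLp (F x) := fun x => rfl
  have hvol : ∀ A : Set V3, IsCompact A → volume.real (T '' A) = 1 * volume.real A := by
    intro A hA
    have hmp : MeasurePreserving T volume volume :=
      ((PiLp.volume_preserving_ofLp (Fin 3)).comp Ψ.measurePreserving).comp
        (PiLp.volume_preserving_toLp (Fin 3))
    have hTA : MeasurableSet (T '' A) :=
      (hA.image T.toContinuousLinearEquiv.continuous).measurableSet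
    rw [one_mul]
    simp only [measureReal_def]
    rw [← hmp.measure_preimage hTA.nullMeasurableSet, preimage_image_eq _ T.injective]
  have hTu : T (WithLp.ofLp u) = e0 := by
    have hPu : P u = 0 := Submodule.orthogonalProjectionOnto_orthogonalComplement_singleton_eq_zero u
    rw [hT]
    funext i
    refine Fin.cases ?_ (fun j => ?_) i <;>
      simp [F, e0, hPu, hu, Fin.succ_ne_zero]
  have hKc : Convex ℝ (WithLp.ofLp '' K) := hc.linear_image w.toLinearMap
  have hKk : IsCompact (WithLp.ofLp '' K) := hk.image (PiLp.continuous_ofLp 2 _)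
  have h := pA_image (T : V3 →ₗ[ℝ] V3) hKk (WithLp.ofLp u) hvol
  simp only [LinearEquiv.coe_coe, hTu, one_mul] at h
  rw [← h, pA_e0 (S := T '' (WithLp.ofLp '' K)) (hKc.linear_image T.toLinearMap)
    (hKk.image T.toContinuousLinearEquiv.continuous)]
  have himg : shadow (T '' (WithLp.ofLp '' K)) = WithLp.ofLp '' (b '' (P '' K)) := by
    simp only [shadow, image_image]
    refine image_congr fun x _ => ?_
    rw [hT]
    funext j
    simp [F, Fin.tail]
  have hmb : MeasurePreserving (fun z : (ℝ ∙ u)ᗮ => WithLp.ofLp (b z)) volume volume :=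
    (PiLp.volume_preserving_ofLp (Fin 2)).comp b.measurePreserving
  rw [himg, image_image, measureReal_def, measureReal_def]
  congr 1
  have hPK : MeasurableSet ((fun z : (ℝ ∙ u)ᗮ => WithLp.ofLp (b z)) '' (P '' K)) :=
    ((hk.image P.continuous).image
      ((PiLp.continuous_ofLp 2 _).comp b.continuous)).measurableSet
  rw [← hmb.measure_preimage hPK.nullMeasurableSet,
    preimage_image_eq _ (fun a c h => b.injective (WithLp.ofLp_injective 2 h))]

end

end Vale.Agent.P237
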