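import Vale.Agent.P237.Zonotope
import Vale.Agent.P237.Mixed
import Vale.Agent.P237.Zonoid
import Vale.Agent.P237.Slice
import Vale.Agent.P237.Contact

/-!
Petty's inequality in dimension three: assembly.
-/

open MeasureTheory Set Pointwise Filter Topology

namespace Vale.Agent.P237

noncomputable section

variable {ι : Type} [Fintype ι]

/-- `3π²/4`. -/
def pc : ℝ := 3 * Real.pi ^ 2 / 4

/-- Lower bound `c` for the ratio of all zonotopes. -/
def PZ (c : ℝ) : Prop :=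
  ∀ (ι : Type) [Fintype ι] (s : ι → V3), 0 < volume.real (zon s) →
    c * volume.real (zon s) ^ 2 ≤ volume.real (zon (piGen s))

omit [Fintype ι] in
lemma piGen_smul (c : ℝ) (s : ι → V3) : piGen (c • s) = c ^ 2 • piGen s := by
  funext p
  simp only [piGen, Pi.smul_apply, map_smul, LinearMap.smul_apply, smul_smul]
  congr 1; ring

lemma supp_zero (s : ι → V3) : supp s 0 = 0 := by simp [supp]

lemma supp_hom (s : ι → V3) (c : ℝ) (u : V3) : supp s (c • u) = |c| * supp s u := by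
  simp [supp, smul_dotProduct, abs_mul, Finset.mul_sum]

lemma abs_apply_le_sum (u : V3) (j : Fin 3) : |u j| ≤ ∑ i, |u i| :=
  Finset.single_le_sum (f := fun i => |u i|) (fun _ _ => abs_nonneg _) (Finset.mem_univ j)

lemma cube_subset_zon (s : ι → V3) {c : ℝ} (h : ∀ u, c * ∑ i, |u i| ≤ supp s u) :
    Icc (fun _ => -c : V3) (fun _ => c) ⊆ zon s := by
  intro x hx
  refine subset_zon_of_dot_le s fun u => le_trans ?_ (h u)
  rw [Finset.mul_sum]
  refine Finset.sum_le_sum fun i _ => (le_abs_self _).trans ?_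
  rw [abs_mul, mul_comm c]
  exact mul_le_mul_of_nonneg_left (abs_le.2 ⟨hx.1 i, hx.2 i⟩) (abs_nonneg _)

lemma vol_cube {c : ℝ} (hc : 0 ≤ c) :
    volume.real (Icc (fun _ => -c : V3) (fun _ => c)) = (2 * c) ^ 3 := by
  rw [measureReal_def, Real.volume_Icc_pi, Finset.prod_const, ENNReal.toReal_pow,
    ENNReal.toReal_ofReal (by linarith)]
  simp; ring

lemma le_vol_zon (s : ι → V3) {c : ℝ} (hc : 0 ≤ c) (h : ∀ u, c * ∑ i, |u i| ≤ supp s u) :
    (2 * c) ^ 3 ≤ volume.real (zon s) :=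
  vol_cube hc ▸ measureReal_mono (cube_subset_zon s h) (zon_compact s).measure_ne_top

lemma zon_pos_of_supp (s : ι → V3) (h : ∀ u ≠ 0, 0 < supp s u) : 0 < volume.real (zon s) := by
  have hc : Continuous (supp s) := by unfold supp dotProduct; fun_prop
  have hS : (Metric.sphere (0 : V3) 1).Nonempty := NormedSpace.sphere_nonempty.2 zero_le_one
  obtain ⟨w, hw, hmin⟩ := (isCompact_sphere (0 : V3) 1).exists_isMinOn hS hc.continuousOn
  have hw0 : w ≠ 0 := by intro h0; simp [h0] at hw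
  have hr := h w hw0
  refine lt_of_lt_of_le (by positivity : 0 < (2 * (supp s w / 3)) ^ 3)
    (le_vol_zon s (by positivity) fun u => ?_)
  rcases eq_or_ne u 0 with rfl | hu
  · simp [supp_zero]
  have hn : 0 < ‖u‖ := norm_pos_iff.2 hu
  have hm : supp s w ≤ supp s (‖u‖⁻¹ • u) := hmin (by simp [norm_smul, hn.ne'])
  rw [supp_hom, abs_of_pos (inv_pos.2 hn)] at hm
  have hsum : ∑ i, |u i| ≤ 3 * ‖u‖ := by
    refine le_trans (Finset.sum_le_sum fun i _ => (show |u i| ≤ ‖u‖ from norm_le_pi_norm u i)) ?_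
    simp
  rw [le_inv_mul_iff₀ hn] at hm
  calc supp s w / 3 * ∑ i, |u i| ≤ supp s w / 3 * (3 * ‖u‖) := by gcongr
    _ = ‖u‖ * supp s w := by ring
    _ ≤ supp s u := hm

lemma supp_map_le {s : ι → V3} {T : V3 ≃ₗ[ℝ] V3} {h : ℝ}
    (hh : ∀ x ∈ T '' zon s, x 0 ≤ h) : supp (fun i => T (s i)) e0 ≤ h := by
  obtain ⟨x, hx, e⟩ := exists_dot_eq_supp (fun i => T (s i)) e0
  have him : T '' zon s = zon (fun i => T (s i)) := zon_map s (T : V3 →ₗ[ℝ] V3)
  have := hh x (him.symm ▸ hx)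
  rw [← e]; simpa [e0, single_dotProduct] using this

lemma vol_zon_three (t : Fin 3 → V3) :
    8 * |t 0 ⬝ᵥ crossProduct (t 1) (t 2)| ≤ volume.real (zon t) := by
  have h : ∀ i k l : Fin 3, k ≠ l →
      4 * |t i ⬝ᵥ crossProduct (t k) (t l)| ≤ supp (piGen t) (t i) := fun i k l hkl => by
    refine le_trans (le_of_eq ?_) (Finset.add_le_sum (f := fun p => |t i ⬝ᵥ piGen t p|)
      (fun _ _ => abs_nonneg _) (Finset.mem_univ (k, l)) (Finset.mem_univ (l, k)) (by simp [hkl]))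
    have e : t i ⬝ᵥ crossProduct (t l) (t k) = -(t i ⬝ᵥ crossProduct (t k) (t l)) := by
      rw [← cross_anticomm, dotProduct_neg]
    simp [piGen, abs_mul, e]; ring
  rw [vol_zon, Fin.sum_univ_three]
  have h0 := h 0 1 2 (by decide)
  have h1 := h 1 2 0 (by decide)
  have h2 := h 2 0 1 (by decide)
  rw [← triple_product_permutation] at h1
  rw [← triple_product_permutation, ← triple_product_permutation] at h2
  linarith

lemma abs_det_pos (T : V3 ≃ₗ[ℝ] V3) : 0 < |LinearMap.det (T : V3 →ₗ[ℝ] V3)| :=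
  abs_pos.2 (LinearEquiv.isUnit_det' T).ne_zero

/-- The projection of a body in John position is not too small. -/
lemma pA_lower_john {X : Set V3} (hX : Body X) (hin : ∀ x : V3, ∑ i, x i ^ 2 ≤ 1 → x ∈ X)
    (hout : ∀ x ∈ X, ∀ i, |x i| ≤ Real.sqrt 3) (u : V3) (j : Fin 3) (hj : |u j| = 1) :
    1 / 10000 ≤ pA X u := by
  have h3 : Real.sqrt 3 ≤ 7 / 4 := by
    rw [show (7:ℝ)/4 = Real.sqrt ((7/4)^2) from (Real.sqrt_sq (by norm_num)).symm]
    exact Real.sqrt_le_sqrt (by norm_num)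
  have hV : (1:ℝ) ≤ volume.real X := by
    have hsub : Icc (fun _ => -(1/2) : V3) (fun _ => 1/2) ⊆ X := fun x hx => hin x (by
      have : ∀ i, x i ^ 2 ≤ 1/4 := fun i => by nlinarith [hx.1 i, hx.2 i]
      calc ∑ i, x i ^ 2 ≤ ∑ _i : Fin 3, (1/4 : ℝ) := Finset.sum_le_sum fun i _ => this i
        _ ≤ 1 := by norm_num)
    have := measureReal_mono (μ := volume) hsub hX.2.1.measure_ne_top
    rw [vol_cube (by norm_num)] at this
    linarith
  have hU : ∀ i, pA X (Pi.single i 1) ≤ 85 := fun i => by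
    have hsub : X + seg (Pi.single i 1) ⊆ Icc (fun _ => -(11/4) : V3) (fun _ => 11/4) := by
      rintro _ ⟨x, hx, _, ⟨t, ht, rfl⟩, rfl⟩
      have hb : ∀ k, |x k + t * (Pi.single i (1:ℝ) : V3) k| ≤ 11/4 := fun k => by
        have h1 := hout x hx k
        have h2 : |t * (Pi.single i (1:ℝ) : V3) k| ≤ 1 := by
          rw [abs_mul]; refine mul_le_one₀ (abs_le.2 ht) (abs_nonneg _) ?_
          rcases eq_or_ne k i with rfl | hk <;> simp [*]
        linarith [abs_add_le (x k) (t * (Pi.single i (1:ℝ) : V3) k)]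
      exact ⟨fun k => by simpa using (abs_le.1 (hb k)).1, fun k => by simpa using (abs_le.1 (hb k)).2⟩
    have hm := measureReal_mono (μ := volume) hsub isCompact_Icc.measure_ne_top
    rw [vol_cube (by norm_num)] at hm
    unfold pA
    linarith [measureReal_nonneg (μ := volume) (s := X)]
  set ε : ℝ := 1 / 1000000 with hε
  set t : Fin 3 → V3 := fun i => if i = j then u else ε • Pi.single i 1 with ht
  have hmix : mixed X t ≤ 2/3 * (pA X u + 2 * ε * 85) := by
    have he : ∀ i, pA X (ε • Pi.single i 1) ≤ ε * 85 := fun i => by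
      rw [pA_smul hX (by norm_num)]; exact mul_le_mul_of_nonneg_left (hU i) (by norm_num)
    have h0 := he 0
    have h1 := he 1
    have h2 := he 2
    unfold mixed
    fin_cases j <;> simp [ht, Fin.sum_univ_three] at h0 h1 h2 ⊢ <;> linarith
  have hvol : 8 * ε ^ 2 ≤ volume.real (zon t) := by
    refine le_trans (le_of_eq ?_) (vol_zon_three t)
    fin_cases j <;>
      simp [ht, cross_apply, dotProduct, Fin.sum_univ_three, abs_mul, hε] at hj ⊢ <;>
      norm_num [hj]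
  have hmk := minkowski hX t
  have hbig : 8 * ε ^ 2 ≤ mixed X t ^ 3 := le_trans (hvol.trans (le_mul_of_one_le_left measureReal_nonneg (one_le_pow₀ hV))) hmk
  by_contra hlt
  push Not at hlt
  have h0 : (0:ℝ) ≤ mixed X t := by
    unfold mixed; exact mul_nonneg (by norm_num) (Finset.sum_nonneg fun i _ => pA_nonneg hX _)
  have : mixed X t ^ 3 ≤ (2/3 * (1/10000 + 2 * ε * 85)) ^ 3 :=
    pow_le_pow_left₀ h0 (hmix.trans (by linarith)) 3
  rw [hε] at this hbig
  norm_num at this hbig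
  linarith

lemma exists_PZ_pos : ∃ c, 0 < c ∧ PZ c := by
  refine ⟨(2 * (1 / 30000)) ^ 3 / 50 ^ 2, by positivity, fun ι _ s hs => ?_⟩
  obtain ⟨T, hin, hout, -⟩ := exists_contact (zon_body s hs) fun x hx => zon_neg_mem s hx
  have him : T '' zon s = zon (fun i => T (s i)) := zon_map s (T : V3 →ₗ[ℝ] V3)
  set d := LinearMap.det (T : V3 →ₗ[ℝ] V3) with hd
  have hdp : 0 < |d| := abs_det_pos T
  have hvT : volume.real (zon fun i => T (s i)) = |d| * volume.real (zon s) := by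
    rw [← him, vol_map]
  set X := zon (fun i => T (s i)) with hXdef
  have hX : Body X := zon_body _ (by rw [hvT]; positivity)
  rw [him] at hin hout
  have hlow : ∀ u, 1 / 30000 * ∑ i, |u i| ≤ supp (piGen fun i => T (s i)) u := fun u => by
    obtain ⟨j, -, hj⟩ := Finset.exists_max_image Finset.univ (fun i => |u i|) Finset.univ_nonempty
    rcases eq_or_ne (u j) 0 with h0 | h0
    · have : ∑ i, |u i| = 0 := Finset.sum_eq_zero fun i hi =>
        le_antisymm (by simpa [h0] using hj i hi) (abs_nonneg _)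
      rw [this, mul_zero]; exact supp_nonneg _ _
    have hp : 0 < |u j| := abs_pos.2 h0
    have h1 := pA_lower_john hX hin hout (|u j|⁻¹ • u) j (by simp [abs_mul, h0])
    rw [hXdef, pA_zon, supp_hom, abs_of_pos (inv_pos.2 hp), le_inv_mul_iff₀ hp] at h1
    have hs3 : ∑ i, |u i| ≤ 3 * |u j| := by
      refine le_trans (Finset.sum_le_sum fun i hi => hj i hi) ?_
      simp
    linarith
  have hW := le_vol_zon _ (by norm_num) hlow
  rw [vol_piGen_map, ← hd] at hW
  have hsub : X ⊆ Icc (fun _ => -(7/4) : V3) (fun _ => 7/4) := fun x hx => by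
    have h3 : Real.sqrt 3 ≤ 7 / 4 := by
      rw [show (7:ℝ)/4 = Real.sqrt ((7/4)^2) from (Real.sqrt_sq (by norm_num)).symm]
      exact Real.sqrt_le_sqrt (by norm_num)
    exact ⟨fun i => by linarith [(abs_le.1 (hout x hx i)).1], fun i => by linarith [(abs_le.1 (hout x hx i)).2]⟩
  have hV := measureReal_mono (μ := volume) hsub isCompact_Icc.measure_ne_top
  rw [vol_cube (by norm_num), hvT] at hV
  have h50 : |d| * volume.real (zon s) ≤ 50 := by linarith
  have h2 : (|d| * volume.real (zon s)) ^ 2 ≤ 50 ^ 2 := pow_le_pow_left₀ (by positivity) h50 2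
  rw [div_mul_eq_mul_div, div_le_iff₀ (by norm_num)]
  rw [mul_pow, sq_abs] at h2
  nlinarith [measureReal_nonneg (μ := volume) (s := zon (piGen s))]

lemma sq_stab {p q : ℝ} (hp : 0 < p) (hq : 0 < q) :
    (q / p - 1) ^ 2 ≤ (p + q) ^ 2 * (1 / p ^ 2 + 1 / q ^ 2) - 8 := by
  have e : (p + q) ^ 2 * (1 / p ^ 2 + 1 / q ^ 2) - 8 =
      (q - p) ^ 2 * (p ^ 2 + 4 * p * q + q ^ 2) / (p ^ 2 * q ^ 2) := by field_simp; ring
  have e2 : (q / p - 1) ^ 2 = (q - p) ^ 2 * q ^ 2 / (p ^ 2 * q ^ 2) := by field_simp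
  rw [e, e2]; gcongr; nlinarith [mul_pos hp hq]

lemma near_key {V0 ε t A B : ℝ} (ht0 : 0 ≤ t) (ht : (2 + ε) ^ 3 - 8 ≤ t ^ 2) (hs : 0 < V0)
    (Ap : 0 < A) (Bp : 0 < B)
    (h : (Real.sqrt A + Real.sqrt B) ^ 2 * (V0 / A + V0 / B) ≤ V0 * (2 + ε) ^ 3) (ht1 : t < 1) :
    (1 - t) ^ 2 * A ≤ B ∧ B ≤ (1 + t) ^ 2 * A := by
  set p := Real.sqrt A with hp
  set q := Real.sqrt B with hq
  have pp : 0 < p := Real.sqrt_pos.2 Ap
  have qp : 0 < q := Real.sqrt_pos.2 Bp
  have eA : A = p ^ 2 := (Real.sq_sqrt Ap.le).symm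
  have eB : B = q ^ 2 := (Real.sq_sqrt Bp.le).symm
  have h8 : (p + q) ^ 2 * (1 / p ^ 2 + 1 / q ^ 2) ≤ (2 + ε) ^ 3 := by
    rw [← eA, ← eB]
    refine le_of_mul_le_mul_left (le_of_eq_of_le ?_ h) hs
    ring
  have hst := abs_le.1 (abs_le_of_sq_le_sq ((sq_stab pp qp).trans (le_trans (by linarith) ht)) ht0)
  have h1 : (1 - t) * p ≤ q := (le_div_iff₀ pp).1 (by linarith [hst.1])
  have h2 : q ≤ (1 + t) * p := (div_le_iff₀ pp).1 (by linarith [hst.2])
  rw [eA, eB]
  exact ⟨by rw [← mul_pow]; exact pow_le_pow_left₀ (by nlinarith) h1 2,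
    by rw [← mul_pow]; exact pow_le_pow_left₀ qp.le h2 2⟩

lemma near_final {m ε t V0 V1 W l d h G : ℝ} (V1p : 0 < V1)
    (hs : 0 < V0) (dp : 0 < d) (hp : 0 < h) (h4 : pc * V1 * (d * h) ≤ d * G)
    (hw2 : l ^ 2 * G ≤ (1 + t) ^ 2 * h) (hR : (1 - t) ^ 2 * V1 ≤ l ^ 2 * W)
    (hWV : W * V0 ^ 2 ≤ V1 ^ 3) (hsm : V1 ≤ m * (1 + ε) * V0 ^ 2) :
    pc * (1 - t) ^ 2 ≤ m * (1 + ε) * (1 + t) ^ 2 := by
  have pcp : 0 < pc := by unfold pc; positivity
  have h5 : pc * V1 * l ^ 2 ≤ (1 + t) ^ 2 := by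
    refine le_of_mul_le_mul_right ?_ (mul_pos dp hp)
    calc pc * V1 * l ^ 2 * (d * h) = l ^ 2 * (pc * V1 * (d * h)) := by ring
      _ ≤ l ^ 2 * (d * G) := by gcongr
      _ = d * (l ^ 2 * G) := by ring
      _ ≤ d * ((1 + t) ^ 2 * h) := by gcongr
      _ = _ := by ring
  refine le_of_mul_le_mul_right ?_ (show 0 < V1 ^ 2 * V0 ^ 2 by positivity)
  calc pc * (1 - t) ^ 2 * (V1 ^ 2 * V0 ^ 2)
      = pc * V1 * V0 ^ 2 * ((1 - t) ^ 2 * V1) := by ring
    _ ≤ pc * V1 * V0 ^ 2 * (l ^ 2 * W) := by gcongr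
    _ = (pc * V1 * l ^ 2) * (W * V0 ^ 2) := by ring
    _ ≤ pc * V1 * l ^ 2 * V1 ^ 3 := by gcongr
    _ ≤ (1 + t) ^ 2 * V1 ^ 3 := by gcongr
    _ = (1 + t) ^ 2 * V1 * V1 ^ 2 := by ring
    _ ≤ (1 + t) ^ 2 * (m * (1 + ε) * V0 ^ 2) * V1 ^ 2 := by gcongr
    _ = _ := by ring

/-- One near-minimal zonotope gives the bound. -/
lemma near_min {m ε t : ℝ} (hm : 0 < m) (hPZ : PZ m) (hε : 0 ≤ ε) (ht0 : 0 ≤ t) (ht1 : t < 1)
    (ht : (2 + ε) ^ 3 - 8 ≤ t ^ 2) (s : ι → V3) (hs : 0 < volume.real (zon s))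
    (hsm : volume.real (zon (piGen s)) ≤ m * (1 + ε) * volume.real (zon s) ^ 2) :
    pc * (1 - t) ^ 2 ≤ m * (1 + ε) * (1 + t) ^ 2 := by
  set g1 := piGen s with hg1
  set g2 := piGen g1 with hg2
  set g3 := piGen g2 with hg3
  set V0 := volume.real (zon s) with hV0
  set V1 := volume.real (zon g1) with hV1
  set W := volume.real (zon g2) with hW
  have V1p : 0 < V1 := lt_of_lt_of_le (by positivity) (hPZ _ s hs)
  have Wp : 0 < W := lt_of_lt_of_le (by positivity) (hPZ _ g1 V1p)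
  have hK := zon_body s hs
  have hmx : mixed (zon s) g2 = V1 := by
    rw [hV1, vol_zon g1, mixed]
    simp only [pA_zon, ← hg1, ← hg2]
    rw [supp_symm g2 g1]
  have hmk := minkowski hK g2
  rw [hmx, ← hV0, ← hW] at hmk
  obtain ⟨a, ha, ha3⟩ : ∃ a : ℝ, 0 < a ∧ a ^ 3 = V0 :=
    ⟨V0 ^ ((3:ℕ) : ℝ)⁻¹, by positivity, Real.rpow_inv_natCast_pow hs.le (by norm_num)⟩
  obtain ⟨b, hb, hb3⟩ : ∃ b : ℝ, 0 < b ∧ b ^ 3 = W :=
    ⟨W ^ ((3:ℕ) : ℝ)⁻¹, by positivity, Real.rpow_inv_natCast_pow Wp.le (by norm_num)⟩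
  set l := a / b with hl
  have hlp : 0 < l := div_pos ha hb
  set L := zon (l • g2) with hL
  have hLv : volume.real L = V0 := by
    rw [hL, zon_smul, measureReal_def, Measure.addHaar_smul_of_nonneg volume hlp.le,
      ENNReal.toReal_mul, ENNReal.toReal_ofReal (by positivity), ← measureReal_def, ← hW, ← ha3,
      ← hb3, hl]
    simp only [Module.finrank_fin_fun, div_pow]
    field_simp
  have hLB : Body L := zon_body _ (hLv ▸ hs)
  have hmxl : mixed (zon s) (l • g2) = l * V1 := by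
    rw [← hmx]
    simp only [mixed, Pi.smul_apply, pA_smul hK hlp.le, ← Finset.mul_sum]
    ring
  set k := V1 / (b * a ^ 2) with hk
  have hk0 : 0 ≤ k := by positivity
  have hk1 : k ≤ 1 + ε := by
    have h1 : k ^ 3 ≤ 1 + ε := by
      have hPW : m * V1 ^ 2 ≤ W := hPZ _ g1 V1p
      have e : k ^ 3 = V1 ^ 3 / (W * V0 ^ 2) := by rw [hk, div_pow, mul_pow, ← ha3, ← hb3]; ring
      rw [e, div_le_iff₀ (by positivity)]
      calc V1 ^ 3 ≤ m * (1 + ε) * V0 ^ 2 * V1 ^ 2 := by nlinarith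
        _ = (1 + ε) * V0 ^ 2 * (m * V1 ^ 2) := by ring
        _ ≤ (1 + ε) * V0 ^ 2 * W := by gcongr
        _ = (1 + ε) * (W * V0 ^ 2) := by ring
    by_contra hc
    push Not at hc
    nlinarith [pow_lt_pow_left₀ hc (by linarith) (by norm_num : (3:ℕ) ≠ 0),
      mul_nonneg hε hε, mul_nonneg (mul_nonneg hε hε) hε]
  have hup : volume.real (zon s + L) ≤ V0 * (2 + ε) ^ 3 := by
    refine (vol_add_le hK (l • g2) ha.le ha3).trans ?_
    rw [hmxl, ← ha3, ← mul_pow]
    refine pow_le_pow_left₀ (by positivity) ?_ 3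
    have : a + l * V1 / a ^ 2 = a * (1 + k) := by rw [hk, hl]; field_simp
    rw [this]; exact mul_le_mul_of_nonneg_left (by linarith) ha.le
  have key : ∀ u : V3, (1 - t) ^ 2 * supp g1 u ≤ l ^ 2 * supp g3 u ∧
      l ^ 2 * supp g3 u ≤ (1 + t) ^ 2 * supp g1 u := by
    intro u
    rcases eq_or_ne u 0 with rfl | hu
    · simp [supp_zero]
    have hA : pA (zon s) u = supp g1 u := pA_zon s u
    have hB : pA L u = l ^ 2 * supp g3 u := by
      rw [hL, pA_zon, piGen_smul, supp_smul _ (sq_nonneg l)]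
    have Ap := pA_pos hK hu
    have Bp := pA_pos hLB hu
    rw [hA] at Ap; rw [hB] at Bp
    have hbn := bonnesen hK hLB hu
    rw [hA, hB, hLv, ← hV0] at hbn
    exact near_key ht0 ht hs Ap Bp (hbn.trans hup) ht1
  have hR : (1 - t) ^ 2 * V1 ≤ l ^ 2 * W := by
    have e1 : V1 = 2 / 3 * ∑ i, supp g1 (g2 i) := by
      rw [← hmx]; simp only [mixed, pA_zon, ← hg1]
    calc (1 - t) ^ 2 * V1 = 2 / 3 * ∑ i, (1 - t) ^ 2 * supp g1 (g2 i) := by
          rw [e1, ← Finset.mul_sum]; ring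
      _ ≤ 2 / 3 * ∑ i, l ^ 2 * supp g3 (g2 i) :=
          mul_le_mul_of_nonneg_left (Finset.sum_le_sum fun i _ => (key _).1) (by norm_num)
      _ = l ^ 2 * W := by rw [hW, vol_zon g2, ← hg3, ← Finset.mul_sum]; ring
  obtain ⟨T, -, -, h, hp, hh, hG⟩ := exists_contact (zon_body g1 V1p) fun x hx => zon_neg_mem g1 hx
  set d := |LinearMap.det (T : V3 →ₗ[ℝ] V3)| with hd
  have dp : 0 < d := abs_det_pos T
  have him : T '' zon g1 = zon (fun i => T (g1 i)) := zon_map g1 (T : V3 →ₗ[ℝ] V3)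
  have hsl := four_sliceG_le (fun i => T (g1 i)) (by rw [← him, vol_map, ← hd]; exact mul_pos dp V1p)
  rw [supp_piGen_piGen_map, ← him, ← hd, ← hg2, ← hg3] at hsl
  rw [vol_map, ← hd, ← hV1] at hG
  have hh1 := supp_map_le hh
  rw [supp_map] at hh1
  set w : V3 := fun j => T (Pi.single j 1) 0 with hw
  have h4 : pc * V1 * (d * h) ≤ d * supp g3 w := by unfold pc; linarith
  have hw2 : l ^ 2 * supp g3 w ≤ (1 + t) ^ 2 * h :=
    (key w).2.trans (mul_le_mul_of_nonneg_left hh1 (sq_nonneg _))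
  exact near_final V1p hs dp hp h4 hw2 hR (by linarith) hsm

/-- Petty's inequality for zonotopes. -/
theorem petty_zonotope : PZ pc := by
  set S : Set ℝ := {r | ∃ (ι : Type) (_ : Fintype ι) (s : ι → V3), 0 < volume.real (zon s) ∧
    r = volume.real (zon (piGen s)) / volume.real (zon s) ^ 2} with hS
  obtain ⟨c, cp, hc⟩ := exists_PZ_pos
  have hbd : BddBelow S := ⟨0, by rintro r ⟨ι, _, s, hs, rfl⟩; positivity⟩
  intro ι0 _ s0 hs0
  have hne : S.Nonempty := ⟨_, ι0, inferInstance, s0, hs0, rfl⟩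
  set m := sInf S with hm
  have hPZ : PZ m := fun ι _ s hs =>
    (le_div_iff₀ (by positivity)).1 (csInf_le hbd ⟨ι, inferInstance, s, hs, rfl⟩)
  have mp : 0 < m := lt_of_lt_of_le cp (le_csInf hne (by
    rintro r ⟨ι, _, s, hs, rfl⟩; exact (le_div_iff₀ (by positivity)).2 (hc ι s hs)))
  suffices pc ≤ m by
    refine le_trans ?_ (hPZ ι0 s0 hs0)
    exact mul_le_mul_of_nonneg_right this (sq_nonneg _)
  let t : ℝ → ℝ := fun ε => Real.sqrt ((2 + ε) ^ 3 - 8)
  have htc : Continuous t := by fun_prop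
  have ht0 : t 0 = 0 := by norm_num [t]
  let F : ℝ → ℝ := fun ε => m * (1 + ε) * (1 + t ε) ^ 2 - pc * (1 - t ε) ^ 2
  have hF : Tendsto F (𝓝[>] 0) (𝓝 (m - pc)) := by
    have : Continuous F := by fun_prop
    have h := (this.tendsto 0).mono_left (nhdsWithin_le_nhds (s := Ioi (0:ℝ)))
    simpa [F, ht0] using h
  have hev : ∀ᶠ ε in 𝓝[>] (0:ℝ), 0 ≤ F ε := by
    have hlt : ∀ᶠ ε in 𝓝[>] (0:ℝ), t ε < 1 :=
      ((htc.tendsto 0).mono_left nhdsWithin_le_nhds).eventually (eventually_lt_nhds (by simp [ht0]))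
    filter_upwards [hlt, self_mem_nhdsWithin] with ε hlt (hε : 0 < ε)
    obtain ⟨r, ⟨ι, _, s, hs, rfl⟩, hr⟩ :=
      exists_lt_of_csInf_lt hne (show sInf S < m * (1 + ε) by rw [← hm]; nlinarith)
    have hd : 0 ≤ (2 + ε) ^ 3 - 8 := by nlinarith [mul_pos hε hε, mul_pos (mul_pos hε hε) hε]
    exact sub_nonneg.2 (near_min mp hPZ hε.le (Real.sqrt_nonneg _) hlt (Real.sq_sqrt hd).ge s hs
      ((div_lt_iff₀ (by positivity)).1 hr).le)
  linarith [ge_of_tendsto hF hev]

/-- Petty's inequality, origin inside, in coordinates. -/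
theorem petty_body {K : Set V3} (hK : Body K) :
    pc * volume.real K ^ 2 ≤ volume.real {x : V3 | ∀ u, u ⬝ᵥ x ≤ pA K u} := by
  set P : Set V3 := {x | ∀ u, u ⬝ᵥ x ≤ pA K u} with hP
  have hPm : volume P ≠ ⊤ := by
    refine ne_top_of_le_ne_top (measure_ne_top_of_subset (subset_refl _) (isCompact_Icc (a := (fun i => -pA K (-(Pi.single i 1)) : V3))
      (b := fun i => pA K (Pi.single i 1))).measure_ne_top) (measure_mono ?_)
    intro x hx
    refine ⟨fun i => ?_, fun i => ?_⟩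
    · have := hx (-(Pi.single i 1)); simp [neg_dotProduct, single_dotProduct] at this; simp; linarith
    · simpa [single_dotProduct] using hx (Pi.single i 1)
  have key : ∀ η : ℝ, 0 < η → pc * volume.real K ^ 2 ≤ (1 + η) ^ 6 * volume.real P := by
    intro η hη
    obtain ⟨n, s, hs⟩ := exists_zonotope_approx hK hη
    have hη1 : 0 < 1 + η := by linarith
    have hpos : 0 < volume.real (zon s) := zon_pos_of_supp s fun u hu =>
      (pos_iff_pos_of_mul_pos (lt_of_lt_of_le (pA_pos hK hu) (hs u).2)).1 hη1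
    set Z := volume.real (zon s) with hZ
    have hmix : mixed K (piGen s) ≤ (1 + η) * Z := by
      calc mixed K (piGen s) ≤ 2 / 3 * ∑ i, (1 + η) * supp s (piGen s i) := by
            unfold mixed; gcongr with i; exact (hs _).2
        _ = (1 + η) * Z := by rw [← Finset.mul_sum, supp_symm (piGen s) s, hZ, vol_zon]; ring
    have hm0 : 0 ≤ mixed K (piGen s) :=
      mul_nonneg (by norm_num) (Finset.sum_nonneg fun i _ => pA_nonneg hK _)
    have h1 : volume.real K ^ 2 * (pc * Z ^ 2) ≤ ((1 + η) * Z) ^ 3 :=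
      le_trans (mul_le_mul_of_nonneg_left (petty_zonotope _ s hpos) (sq_nonneg _))
        ((minkowski hK (piGen s)).trans (pow_le_pow_left₀ hm0 hmix 3))
    have h2 : pc * volume.real K ^ 2 ≤ (1 + η) ^ 3 * Z :=
      le_of_mul_le_mul_right (by linarith) (pow_pos hpos 2)
    have hsub : zon s ⊆ (1 + η) • P := fun x hx => by
      rw [mem_smul_set_iff_inv_smul_mem₀ hη1.ne']
      intro u
      rw [dotProduct_smul, smul_eq_mul, inv_mul_le_iff₀ hη1]
      exact (dot_le_supp s u hx).trans (hs u).1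
    have h3 : Z ≤ (1 + η) ^ 3 * volume.real P := by
      have : volume.real ((1 + η) • P) = (1 + η) ^ 3 * volume.real P := by
        rw [measureReal_def, Measure.addHaar_smul_of_nonneg volume hη1.le, ENNReal.toReal_mul,
          ENNReal.toReal_ofReal (by positivity), ← measureReal_def]
        simp
      rw [← this]
      refine measureReal_mono hsub ?_
      rw [Measure.addHaar_smul_of_nonneg volume hη1.le]
      exact ENNReal.mul_ne_top ENNReal.ofReal_ne_top hPm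
    calc pc * volume.real K ^ 2 ≤ (1 + η) ^ 3 * Z := h2
      _ ≤ (1 + η) ^ 3 * ((1 + η) ^ 3 * volume.real P) := by gcongr
      _ = _ := by ring
  have hlim : Tendsto (fun η : ℝ => (1 + η) ^ 6 * volume.real P) (𝓝[>] 0) (𝓝 (volume.real P)) := by
    have : Continuous fun η : ℝ => (1 + η) ^ 6 * volume.real P := by fun_prop
    simpa using (this.tendsto 0).mono_left (nhdsWithin_le_nhds (s := Ioi (0:ℝ)))
  exact ge_of_tendsto hlim (eventually_nhdsWithin_of_forall fun η hη => key η hη)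

end

end Vale.Agent.P237
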